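import Vale.Agent.P231.BX.InsC
import Vale.Agent.P231.XC.Groth

/-!
# P231, stage 3, block C5 (16): the Chern forms of `ξ` and of `T` on the space of pairs
-/

set_option maxSynthPendingDepth 3
set_option linter.unusedSectionVars false
set_option linter.unusedVariables false

open Bundle Manifold Set Filter Module Matrix
open scoped ContDiff Manifold Topology

namespace Vale.Agent.P231.BX

noncomputable section

open Vale.Agent.P234 Vale.Agent.P231 Vale.Agent.P231.Fm Vale.Agent.P231.W Vale.Agent.P231.WR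
  Vale.Agent.P231.H775 Vale.Agent.P231.S2N Vale.Agent.P231.ChW Vale.Agent.P231.X3
  Vale.Agent.P231.S3S Vale.Agent.P231.S3C Vale.Agent.P231.XC

section Abs

variable {B : Type*} {DB : Dif B} {ι : Type} [Fintype ι] [DecidableEq ι]

theorem cplx_eq_zero {m n : Type*} {A : Matrix m n ℝ} (h : A = 0) : cplx A = 0 := by
  subst h
  ext i j
  simp

/-- a real line has no Chern character forms of positive degree -/
theorem sF_line_real {A : B → Matrix ι ι ℝ} (hA : SmM DB A) (hs : SmM DB (fun b => cplx (A b)))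
    (hi : ∀ b, A b * A b = A b) (ht : ∀ b, (A b)ᵀ = A b) (h1 : ∀ b, trace (A b) = 1) {k : ℕ}
    (hk : k ≠ 0) : sF k (cM (fun b => cplx (A b)) hs) = 0 := by
  have e1 : Idem (cM (fun b => cplx (A b)) hs) := idem_cM hs fun b => by rw [← cplx_mul, hi]
  have e2 : (cM (fun b => cplx (A b)) hs)ᵀ = ChW.cj (cM (fun b => cplx (A b)) hs) := by
    rw [cM_transpose, cj_cM]
    refine cM_congr _ _ fun b => ?_
    rw [cplx_conj, cplx_transpose, ht]
  have e3 : RankOne (cM (fun b => cplx (A b)) hs) :=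
    rankOne_cM hs (fun b => by rw [← cplx_mul, hi]) fun b => by rw [cplx_trace, h1]; simp
  rw [sF_rankOne e1 e3 e2]
  have e4 : sF 1 (cM (fun b => cplx (A b)) hs) = 0 := by
    have h := sF_real_odd (rM A hA) (k := 1) odd_one
    rw [rM_map_of] at h
    exact h
  rw [e4, zero_pow hk]

/-- the projector of the base as a basic idempotent -/
theorem ib_real {φ : B × ℝ → B} (hφ : (DB.prod (Dif.lin ℝ)).Map DB φ) {A : B → Matrix ι ι ℝ}
    (hs : SmM DB (fun b => cplx (A b))) (hi : ∀ b, A b * A b = A b)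
    (hinv : ∀ b t, A (φ (b, t)) = A b) :
    S2T.IB (famB DB φ hφ) (cM (fun b => cplx (A b)) hs) where
  idem := idem_cM _ fun b => by rw [← cplx_mul, hi]
  bas i := by
    cases i
    · exact basicM_cM _ fun _ _ => rfl
    · exact basicM_cM _ fun b t => by rw [show (famB DB φ hφ).Φ true (b, t) = φ (b, t) from rfl, hinv]

/-- **a real line does not change the Chern forms** -/
theorem cls_line {φ : B × ℝ → B} (hφ : (DB.prod (Dif.lin ℝ)).Map DB φ)
    {P Q : B → Matrix ι ι ℝ} {a : B → ι → ℝ} {l k : ℕ} (hP : XC.Pj DB P l) (hQ : XC.Pj DB Q k)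
    (ha : ∀ i, SmF DB (fun b => a b i)) (hPQ : ∀ b, P b = Q b + vecMulVec (a b) (a b))
    (hQa : ∀ b, Q b *ᵥ a b = 0) (h1 : ∀ b, a b ⬝ᵥ a b = 1)
    (iQ : ∀ b t, Q (φ (b, t)) = Q b) (ia : ∀ b t, a (φ (b, t)) = a b) (j : ℕ) :
    ∃ ρ : Form DB, Basic φ hφ ρ ∧ XC.cF hP j = XC.cF hQ j + ρ.d := by
  have iP : ∀ b t, P (φ (b, t)) = P b := fun b t => by rw [hPQ, hPQ, iQ, ia]
  set V : B → Matrix ι ι ℝ := fun b => vecMulVec (a b) (a b) with hV
  have sV : SmM DB V := fun i j => (ha i).mul (ha j)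
  have sV' : SmM DB (fun b => cplx (V b)) := fun i j => (sV i j).ofReal
  have vi : ∀ b, V b * V b = V b := fun b => by
    rw [hV]
    simp only
    rw [Matrix.vecMulVec_mul_vecMulVec, h1, one_smul]
  have vt : ∀ b, (V b)ᵀ = V b := fun b => Matrix.transpose_vecMulVec _ _
  have vtr : ∀ b, trace (V b) = 1 := fun b => by rw [hV]; simp only [Matrix.trace_vecMulVec, h1]
  have bP := ibB hP iP hφ
  have bQ := ibB hQ iQ hφ
  have bV : S2T.IB (famB DB φ hφ) (cM (fun b => cplx (V b)) sV') :=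
    ib_real hφ sV' vi fun b t => by rw [hV]; simp only [ia]
  have z1 : ∀ b, Q b * V b = 0 := fun b => by
    rw [hV]
    simp only
    rw [Matrix.mul_vecMulVec, hQa, Matrix.zero_vecMulVec]
  have z2 : ∀ b, V b * Q b = 0 := fun b => by
    have h := congrArg Matrix.transpose (z1 b)
    rw [Matrix.transpose_mul, vt, hQ.symm, Matrix.transpose_zero] at h
    exact h
  have m1 : cM (fun b => cplx (Q b)) (sm_cP hQ) * cM (fun b => cplx (V b)) sV' = 0 := by
    rw [cM_mul]
    exact cM_eq_zero _ fun b => by rw [← cplx_mul]; exact cplx_eq_zero (z1 b)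
  have m2 : cM (fun b => cplx (V b)) sV' * cM (fun b => cplx (Q b)) (sm_cP hQ) = 0 := by
    rw [cM_mul]
    exact cM_eq_zero _ fun b => by rw [← cplx_mul]; exact cplx_eq_zero (z2 b)
  have m3 : cM (fun b => cplx (Q b)) (sm_cP hQ) + cM (fun b => cplx (V b)) sV' =
      cM (fun b => cplx (P b)) (sm_cP hP) := by
    rw [cM_add]
    exact cM_congr _ _ fun b => by rw [← cplx_add, hPQ]
  have hcl : ∀ i : ℕ, (famB DB φ hφ).qm (bP.cl (i + 1)) = (famB DB φ hφ).qm (bQ.cl (i + 1)) := by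
    intro i
    have h4 := bQ.cl_add bV m1 m2 (i + 1)
    have h5 := (bQ.add bV m1 m2).cl_congr bP m3 (i + 1)
    rw [h5] at h4
    have h6 : bV.cl (i + 1) = 0 :=
      Subtype.ext (sF_line_real sV sV' vi vt vtr (Nat.succ_ne_zero i))
    rw [h4, h6, map_zero, add_zero]
  have n1 := (newtE_spec (K := ℝ) (fun k => bP.cl k)).map (famB DB φ hφ).qm
  have n2 := (newtE_spec (K := ℝ) (fun k => bQ.cl k)).map (famB DB φ hφ).qm
  have n3 := (n1.congr hcl).unique n2 j
  obtain ⟨η, q1, q2⟩ := (famB DB φ hφ).exists_of_qm_eq n3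
  refine ⟨η, q1 true, ?_⟩
  have c1 : ((newtE ℝ (fun k => bP.cl k) j : (famB DB φ hφ).Bas) : Form DB) = cF hP j :=
    coe_cB hP iP hφ j
  have c2 : ((newtE ℝ (fun k => bQ.cl k) j : (famB DB φ hφ).Bas) : Form DB) = cF hQ j :=
    coe_cB hQ iQ hφ j
  rw [c1, c2] at q2
  rw [← q2]
  abel

end Abs

section Pull

variable {X Y : Type*} {D : Dif X} {D' : Dif Y} {ι : Type} [Fintype ι] [DecidableEq ι]

/-- pull-back of a bundle -/
theorem Pj_comp {P : Y → Matrix ι ι ℝ} {l : ℕ} (h : XC.Pj D' P l) {f : X → Y} (hf : D.Map D' f) :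
    XC.Pj D (fun x => P (f x)) l where
  sm i j := (h.sm i j).comp hf
  idem x := h.idem (f x)
  symm x := h.symm (f x)
  tr x := h.tr (f x)

/-- naturality of the Chern forms -/
theorem cF_comp {P : Y → Matrix ι ι ℝ} {l : ℕ} (h : XC.Pj D' P l) {f : X → Y}
    (hf : D.Map D' f) (j : ℕ) : Form.pull f hf (XC.cF h j) = XC.cF (Pj_comp h hf) j := by
  refine ((newtE_spec (K := ℝ) (fun k => sF k (cM (fun b => cplx (P b)) (sm_cP h)))).map
    (Form.pullA f hf)).unique ?_ j
  have h1 := newtE_spec (K := ℝ) (fun k => sF k (cM (fun b => cplx (P (f b)))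
    (sm_cP (Pj_comp h hf))))
  refine h1.congr fun i => ?_
  have h2 := S2T.IB.sF_pull (cM (fun b => cplx (P b)) (sm_cP h)) f hf (i + 1)
  rw [map_pullC_cM] at h2
  exact h2

end Pull

variable {E : Type*} [NormedAddCommGroup E] [NormedSpace ℝ E]
  {M : Type*} [MetricSpace M] [ChartedSpace E M]
  [RiemannianBundle (fun x : M => TangentSpace 𝓘(ℝ, E) x)]
  {e : ∀ x : M, TangentSpace 𝓘(ℝ, E) x → M}
  [FiniteDimensional ℝ E] [IsManifold 𝓘(ℝ, E) ∞ M]
  [IsContMDiffRiemannianBundle 𝓘(ℝ, E) ∞ E (fun x : M => TangentSpace 𝓘(ℝ, E) x)]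
  [CompactSpace M] [ConnectedSpace M] [IsRiemannianManifold 𝓘(ℝ, E) M]

variable {D : ℝ} {ι : Type} [Fintype ι] [DecidableEq ι]
variable {F : Facts e} {hD : 0 < D} {hB : InjGE e D} {hdiam : ∀ p q : M, dist p q ≤ D}
  {k : ℕ} {X δ : ι → UT E M → E} {ε : ℝ}

/-- **the Chern forms of `ξ` and of `T`** -/
theorem cls_T (hP : ∀ x y : M, dist x y = D → finrank ℝ (H775.Pl e D x y) = k + 1 + 1)
    (h : S2N.Fam F hD hB hdiam (k + 1) X δ ε) (j : ℕ) :
    ∃ ρ : Form (dPr e D), Basic (S2N.Lam hP h) (S2N.isFlow_Lam hP h).map ρ ∧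
      Form.pull Pr.v map_v (XC.cF (S3C.pj h) j) = XC.cF (pjT hP h) j + ρ.d := by
  rw [cF_comp]
  refine cls_line (S2N.isFlow_Lam hP h).map (Pj_comp (S3C.pj h) map_v) (pjT hP h)
    (a := av F hD hB hdiam X δ ε) (fun i => sm_av hP h i) (fun b => ?_) (fun b => Pt_av hP h b)
    (fun b => nq_av hP h b) (fun b t => Pt_Lam hP h b t) (fun b t => av_Lam hP h b t) j
  rw [Pt, sub_add_cancel]

end

end Vale.Agent.P231.BX
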