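import Vale.Agent.P231.TW.DegMap

/-!
# P231, stage 3, block BOX (1): integrality of the degree of a map on a closed domain

`C` is a closed domain with null boundary, `Ψ` a smooth map to a space of the same dimension,
proper on `C`, such that Stokes' formula holds on `C` for the pull-backs without boundary terms.
-/

set_option linter.unusedSectionVars false
set_option linter.unusedVariables false

open Module MeasureTheory Set Metric Filter
open scoped ContDiff Topology

namespace Vale.Agent.P231.BX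

open Fm TW

variable {E : Type*} [NormedAddCommGroup E] [NormedSpace ℝ E] [FiniteDimensional ℝ E]
  [MeasurableSpace E] [BorelSpace E]

variable {f : E → E} {C : Set E}

theorem setIntegral_interior (μ : Measure E) (hC : IsClosed C) (h0 : μ (frontier C) = 0)
    (g : E → ℝ) : ∫ x in C, g x ∂μ = ∫ x in interior C, g x ∂μ := by
  exact setIntegral_congr_set (interior_ae_eq_of_null_frontier h0).symm

/-- the degree near a regular value -/
theorem loc_deg (μ : Measure E) [μ.IsAddHaarMeasure] (hf : ContDiff ℝ ∞ f) (hC : IsClosed C)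
    (h0 : μ (frontier C) = 0) (hp : ∀ K, IsCompact K → IsCompact (C ∩ f ⁻¹' K)) {y₀ : E}
    (hy : y₀ ∉ f '' frontier C) (hreg : ∀ x, f x = y₀ → (fderiv ℝ f x).det ≠ 0) :
    ∃ ε > 0, ∃ k : ℤ, ∀ g : E → ℝ, Continuous g → (∀ y ∉ ball y₀ ε, g y = 0) →
      ∫ x in C, g (f x) * (fderiv ℝ f x).det ∂μ = k * ∫ y, g y ∂μ := by
  have hfr : frontier C ⊆ C := hC.frontier_subset
  have hC1 : IsCompact (frontier C ∩ f ⁻¹' closedBall y₀ 1) := by
    have h1 : frontier C ∩ f ⁻¹' closedBall y₀ 1 = (C ∩ f ⁻¹' closedBall y₀ 1) ∩ frontier C := by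
      ext x
      constructor
      · rintro ⟨h1, h2⟩
        exact ⟨⟨hfr h1, h2⟩, h1⟩
      · rintro ⟨⟨_, h2⟩, h1⟩
        exact ⟨h1, h2⟩
    rw [h1]
    exact (hp _ (isCompact_closedBall y₀ 1)).inter_right isClosed_frontier
  have hfC : IsCompact (f '' (frontier C ∩ f ⁻¹' closedBall y₀ 1)) := hC1.image hf.continuous
  have hy' : y₀ ∉ f '' (frontier C ∩ f ⁻¹' closedBall y₀ 1) := by
    rintro ⟨x, ⟨hx, _⟩, hxy⟩
    exact hy ⟨x, hx, hxy⟩
  obtain ⟨δ, hδ, hδs⟩ := nhds_basis_ball.mem_iff.1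
    (Filter.inter_mem (hfC.isClosed.isOpen_compl.mem_nhds hy') (closedBall_mem_nhds y₀ one_pos))
  have hp' : ∀ K ⊆ ball y₀ δ, IsCompact K → IsCompact {x | x ∈ interior C ∧ f x ∈ K} := by
    intro K hK hKc
    have h3 : {x | x ∈ interior C ∧ f x ∈ K} = C ∩ f ⁻¹' K := by
      ext x
      constructor
      · rintro ⟨h4, h5⟩
        exact ⟨interior_subset h4, h5⟩
      · rintro ⟨h4, h5⟩
        refine ⟨?_, h5⟩
        by_contra h6
        refine (hδs (hK h5)).1 ⟨x, ⟨?_, (hδs (hK h5)).2⟩, rfl⟩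
        rw [hC.frontier_eq]
        exact ⟨h4, h6⟩
    rw [h3]
    exact hp K hKc
  obtain ⟨ε, hε, k, hk⟩ := local_degree μ isOpen_interior isOpen_ball
    (hf.contDiffOn (s := interior C)) hp' (mem_ball_self hδ) (fun x _ hx => hreg x hx)
  refine ⟨ε, hε, k, fun g hg hg0 => ?_⟩
  rw [← hk g hg hg0]
  exact setIntegral_interior μ hC h0 _

theorem int_comp_det (μ : Measure E) [μ.IsAddHaarMeasure] (hf : ContDiff ℝ ∞ f)
    (hC : IsClosed C) (hp : ∀ K, IsCompact K → IsCompact (C ∩ f ⁻¹' K)) {g : E → ℝ}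
    (hg : Continuous g) (hgc : HasCompactSupport g) :
    IntegrableOn (fun x => g (f x) * (fderiv ℝ f x).det) C μ := by
  have hdc : Continuous fun x => (fderiv ℝ f x).det :=
    ContinuousLinearMap.continuous_det.comp (hf.continuous_fderiv (by simp))
  have h1 : IntegrableOn (fun x => g (f x) * (fderiv ℝ f x).det) (C ∩ f ⁻¹' tsupport g) μ :=
    ((hg.comp hf.continuous).mul hdc).continuousOn.integrableOn_compact (hp _ hgc.isCompact)
  refine h1.of_forall_sdiff_eq_zero hC.measurableSet fun x hx => ?_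
  have : g (f x) = 0 := image_eq_zero_of_notMem_tsupport fun h => hx.2 ⟨hx.1, h⟩
  rw [this, zero_mul]

/-- **integrality of the degree on a closed domain** -/
theorem exists_int (μ : Measure E) [μ.IsAddHaarMeasure] (hf : ContDiff ℝ ∞ f)
    (hC : IsClosed C) (h0 : μ (frontier C) = 0)
    (hp : ∀ K, IsCompact K → IsCompact (C ∩ f ⁻¹' K)) (hE : 0 < finrank ℝ E) {N : ℕ}
    (b : Basis (Fin N) ℝ E)
    (hst : ∀ η : E → Lam E, ContDiff ℝ ∞ η → HasCompactSupport η →
      ∫ x in C, evalForm (pb f (extd η) x) b ∂μ = 0) :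
    ∃ k : ℤ, ∀ g : E → ℝ, ContDiff ℝ ∞ g → HasCompactSupport g →
      ∫ x in C, g (f x) * (fderiv ℝ f x).det ∂μ = k * ∫ y, g y ∂μ := by
  have hC1 : μ (f '' {x | (fderiv ℝ f x).det = 0}) = 0 :=
    addHaar_image_eq_zero_of_det_fderivWithin_eq_zero μ
    (fun x _ => (hf.differentiable (by simp) x).hasFDerivAt.hasFDerivWithinAt) (fun x hx => hx)
  have hC2 : μ (f '' frontier C) = 0 :=
    addHaar_image_eq_zero_of_differentiableOn_of_addHaar_eq_zero μ
      (hf.differentiable (by simp)).differentiableOn h0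
  obtain ⟨y₀, hy₀⟩ : ∃ y₀, y₀ ∉ f '' {x | (fderiv ℝ f x).det = 0} ∪ f '' frontier C := by
    by_contra h
    push Not at h
    have h1 := measure_union_null hC1 hC2
    rw [eq_univ_of_forall h] at h1
    exact (isOpen_univ.measure_pos μ univ_nonempty).ne' h1
  rw [mem_union, not_or] at hy₀
  obtain ⟨ε, hε, k, hk⟩ := loc_deg μ hf hC h0 hp hy₀.2 (fun x hxy hd => hy₀.1 ⟨x, hd, hxy⟩)
  refine ⟨k, fun g hg hgc => ?_⟩
  obtain ⟨M, hM0, hM⟩ : ∃ M, 0 < M ∧ tsupport g ⊆ closedBall y₀ M :=
    (hgc.isCompact.isBounded.subset_closedBall_lt 0 y₀)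
  have hR : 1 ≤ 1 + M / ε := by
    have : 0 < M / ε := by positivity
    linarith
  have hR0 : (0 : ℝ) < 1 + M / ε := by linarith
  set R : ℝ := 1 + M / ε with hRdef
  let gR : E → ℝ := fun y => R ^ finrank ℝ E * g (y₀ + R • (y - y₀))
  have hgRc : ContDiff ℝ ∞ gR := by
    have : ContDiff ℝ ∞ fun y : E => y₀ + R • (y - y₀) := by fun_prop
    exact contDiff_const.mul (hg.comp this)
  have hgR0 : ∀ y ∉ ball y₀ ε, gR y = 0 := by
    intro y hy
    have h1 : g (y₀ + R • (y - y₀)) = 0 := by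
      refine image_eq_zero_of_notMem_tsupport fun h => ?_
      have h2 := hM h
      rw [mem_closedBall, dist_eq_norm, add_sub_cancel_left, norm_smul, Real.norm_eq_abs,
        abs_of_pos hR0] at h2
      rw [mem_ball, dist_eq_norm, not_lt] at hy
      have h3 : R * ε ≤ R * ‖y - y₀‖ := by gcongr
      have h4 : R * ε = ε + M := by
        rw [hRdef]
        field_simp
      linarith
    simp only [gR, h1, mul_zero]
  have hfN : finrank ℝ E = N := (finrank_eq_card_basis b).trans (Fintype.card_fin N)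
  obtain ⟨τ, hτ1, hτ⟩ := exists_top b
  obtain ⟨η, hη, hηc, -, hηe⟩ := exists_prim hfN hτ convex_univ hg hgc (subset_univ _)
    (mem_univ y₀) hR
  have h1 := hst η hη hηc
  have h4 : ∀ x, evalForm (pb f (extd η) x) b =
      gR (f x) * (fderiv ℝ f x).det - g (f x) * (fderiv ℝ f x).det := by
    intro x
    rw [pb, evalForm_pull_det, ← hηe, evalForm_apply, map_sub, map_sub, map_smul, map_smul,
      map_smul, map_smul, ← evalForm_apply, hτ1]
    change (fderiv ℝ f x).det * _ = _
    simp only [smul_eq_mul, mul_one, gR, hfN]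
    ring
  have hgRs : HasCompactSupport gR := HasCompactSupport.intro (isCompact_closedBall y₀ ε)
    fun y hy => hgR0 y fun h => hy (ball_subset_closedBall h)
  have i1 := int_comp_det μ hf hC hp hgRc.continuous hgRs
  have i2 := int_comp_det μ hf hC hp hg.continuous hgc
  simp only [h4] at h1
  rw [integral_sub i1 i2, sub_eq_zero] at h1
  rw [← h1, hk gR hgRc.continuous hgR0, integral_homothety μ g y₀ hR0]

/-! ### maps between two spaces -/

section Two

variable {Z : Type*} [NormedAddCommGroup Z] [NormedSpace ℝ Z] [FiniteDimensional ℝ Z]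
  [MeasurableSpace Z] [BorelSpace Z]
variable {V : Type*} [NormedAddCommGroup V] [NormedSpace ℝ V] [FiniteDimensional ℝ V]
  [MeasurableSpace V] [BorelSpace V]
variable {Ψ : Z → V} {A : Set Z}

/-- the integral over a domain of a form of top degree -/
noncomputable def JD {N : ℕ} (b : Basis (Fin N) ℝ Z) (A : Set Z) (w : Z → Lam Z) : ℝ :=
  ∫ x in A, evalForm (w x) b ∂b.addHaar

/-- change of variables by a linear isomorphism -/
theorem JD_pb_equiv {N : ℕ} (bZ : Basis (Fin N) ℝ Z) (bV : Basis (Fin N) ℝ V) (L : V ≃L[ℝ] Z)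
    (hL : bV.map L.toLinearEquiv = bZ) (w : Z → Lam Z) :
    JD bZ A w = JD bV (L ⁻¹' A) (pb L w) := by
  have h1 : MeasurableEmbedding (L : V → Z) := L.toHomeomorph.measurableEmbedding
  have hm : (bV.addHaar).map L = bZ.addHaar := by
    rw [← hL]
    exact Basis.map_addHaar bV L
  unfold JD
  rw [← hm, h1.setIntegral_map]
  refine integral_congr_ae (Eventually.of_forall fun x => ?_)
  change evalForm (w (L x)) bZ = evalForm (pb L w x) bV
  rw [pb, L.fderiv, evalForm_pull, ← hL]
  rfl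

/-- **integrality of the degree on a closed domain, for forms** -/
theorem exists_int_form {N : ℕ} (hN : 0 < N) (bZ : Basis (Fin N) ℝ Z) (bV : Basis (Fin N) ℝ V)
    (hΨ : ContDiff ℝ ∞ Ψ) (hA : IsClosed A) (h0 : bZ.addHaar (frontier A) = 0)
    (hp : ∀ K, IsCompact K → IsCompact (A ∩ Ψ ⁻¹' K))
    (hst : ∀ η : V → Lam V, ContDiff ℝ ∞ η → HasCompactSupport η →
      JD bZ A (pb Ψ (extd η)) = 0) :
    ∃ n : ℤ, ∀ W : V → Lam V, ContDiff ℝ ∞ W → HasCompactSupport W →
      JD bZ A (pb Ψ W) = n * JJ bV W := by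
  have hfV : finrank ℝ V = N := finrank_eq_card_basis bV |>.trans (Fintype.card_fin N)
  let L : V ≃L[ℝ] Z := (bV.equiv bZ (Equiv.refl _)).toContinuousLinearEquiv
  have hL : bV.map L.toLinearEquiv = bZ := by
    refine Basis.eq_of_apply_eq fun i => ?_
    rw [Basis.map_apply]
    change (bV.equiv bZ (Equiv.refl _)) (bV i) = bZ i
    rw [Basis.equiv_apply]
    rfl
  have h1 : MeasurableEmbedding (L : V → Z) := L.toHomeomorph.measurableEmbedding
  have hf : ContDiff ℝ ∞ fun v => Ψ (L v) := hΨ.comp L.contDiff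
  have hfr : frontier (L ⁻¹' A) = L ⁻¹' frontier A := by
    have := L.toHomeomorph.preimage_frontier A
    exact this.symm
  have h2 : ∀ W : V → Lam V, JD bZ A (pb Ψ W) = JD bV (L ⁻¹' A) (pb (fun v => Ψ (L v)) W) := by
    intro W
    rw [JD_pb_equiv bZ bV L hL]
    unfold JD
    refine integral_congr_ae (Eventually.of_forall fun v => ?_)
    change evalForm (pb L (pb Ψ W) v) bV = evalForm (pb (fun v => Ψ (L v)) W v) bV
    rw [← pb_comp W (hΨ.differentiable (by simp) _) L.differentiableAt]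
  obtain ⟨n, hn⟩ := exists_int bV.addHaar hf (C := L ⁻¹' A) (hA.preimage L.continuous)
    (by
      rw [hfr]
      have hm : (bV.addHaar).map L = bZ.addHaar := by
        rw [← hL]
        exact Basis.map_addHaar bV L
      rw [← hm, h1.map_apply] at h0
      exact h0)
    (fun K hK => by
      have h3 : L ⁻¹' A ∩ (fun v => Ψ (L v)) ⁻¹' K = L.symm '' (A ∩ Ψ ⁻¹' K) := by
        rw [ContinuousLinearEquiv.image_symm_eq_preimage]
        rfl
      rw [h3]
      exact (hp K hK).image L.symm.continuous)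
    (by omega) bV (fun η hη hηc => by
      have h3 := hst η hη hηc
      rw [h2] at h3
      exact h3)
  refine ⟨n, fun W hW hWc => ?_⟩
  rw [h2]
  have h4 := hn (fun y => evalL bV (W y)) ((evalL bV).contDiff.comp hW)
    (hWc.comp_left (g := evalL bV) (map_zero _))
  refine Eq.trans ?_ h4
  unfold JD
  refine integral_congr_ae (Eventually.of_forall fun v => ?_)
  change evalForm (Fm.pull _ (W (Ψ (L v)))) bV = _
  rw [evalForm_pull_det, mul_comm]
  rfl

end Two

end Vale.Agent.P231.BX
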