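import Vale.Agent.P231.Co.AngC
import Vale.Agent.P231.Co.SIFib

/-!
# P231, stage 3, block C5 (6): constant fibre integrals
-/

set_option linter.unusedSectionVars false
set_option linter.unusedVariables false

open Bundle Manifold Set Filter Module
open scoped ContDiff Manifold Topology

namespace Vale.Agent.P231.BX

noncomputable section

open Vale.Agent.P231.Fm Vale.Agent.P231.W Vale.Agent.P231.CoC
open Vale.Agent.P231.Co (SB pull_inj si isDeg_si)
open Vale.Agent.P231.S2I (sint map_rad' dPt Pt dP)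

variable {B S Fr : Type*} {DB : Dif B} {DS : Dif S} {DF : Dif Fr}
variable {F' : Type} [NormedAddCommGroup F'] [InnerProductSpace ℝ F'] [FiniteDimensional ℝ F']
  [MeasurableSpace F'] [BorelSpace F'] {m : ℕ} (o : OrthonormalBasis (Fin m) ℝ F')
  {ϖ : S → B} {q : Fr → B} {ev : Fr × F' → S}

/-- the fibre integral at a point is the integral over the sphere -/
theorem ptv_si_eq (h : Co.Bun DB DS DF F' ϖ q ev) (σ : Form DS) {L : Fr}
    (hL : dPt.Map DF (fun _ => L)) :
    WF.ptv (si o (Form.pull ev h.hev σ)) L =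
      sint o (Form.pull (fun y => ev (L, rad y)) (map_cst hL h) σ) := by
  have h2 := Co.si_nat o hL (Form.pull ev h.hev σ)
  have h3 : (Form.pull Prod.snd S2I.map_i (Form.pull (fun y => ev (L, rad y)) (map_cst hL h) σ) :
      Form (SB dPt F')) = Form.pull (fun p : Pt × F' => (L, p.2)) (Co.map_SB hL)
        (Form.pull ev h.hev σ) := by
    refine Form.ext_val fun V _ _ _ u x hu => ?_
    rw [Form.pull_val _ _ hu, Form.pull_val _ _ (S2I.map_i hu), Form.pull_val _ _ hu,
      Form.pull_val _ _ (Co.map_SB hL hu)]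
    refine σ.congr (map_cst hL h (S2I.map_i hu)) ?_
    filter_upwards [hu.2] with y hy
    have hy' : ‖(u y).2‖ = 1 := hy
    show ev (L, rad (u y).2) = ev (L, (u y).2)
    rw [rad_unit hy']
  have h4 : si o (Form.pull Prod.snd S2I.map_i
      (Form.pull (fun y => ev (L, rad y)) (map_cst hL h) σ) : Form (SB dPt F')) =
        Form.pull (fun _ => L) hL (si o (Form.pull ev h.hev σ)) := by
    rw [h3]
    exact h2
  rw [sint, h4, WF.ptv, WF.ptv, Form.pull_val hL _ (S2I.pt_at _ _)]
  rfl

/-- **a fibre integral which is the same on all fibres** -/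
theorem SI_const (h : Co.Bun DB DS DF F' ϖ q ev) {σ : Form DS} {j : ℕ} (hσ : Form.IsDeg j σ)
    (hj : j + 1 = m) {c : ℝ}
    (hc : ∀ (L : Fr) (hL : dPt.Map DF (fun _ => L)),
      sint o (Form.pull (fun y => ev (L, rad y)) (map_cst hL h) σ) = c) :
    h.SI o σ = c • (1 : Form DB) := by
  refine pull_inj h.hq ?_
  rw [h.pull_SI o, Co.Bun.smul_one_pull]
  have hd : Form.IsDeg 0 (si o (Form.pull ev h.hev σ)) :=
    isDeg_si o (hσ.pull ev h.hev) (by omega)
  refine Form.ext_val fun E _ _ _ u x hu => ?_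
  have hL : dPt.Map DF (fun _ => u x) := fun {V} _ _ _ {v y} _ =>
    Dif.comp DF (u := u) (g := fun _ : V => x) (x := y) hu (Sm.of_contDiff contDiff_const _)
  have h5 : WF.ptv (si o (Form.pull ev h.hev σ)) (u x) = c := (ptv_si_eq o h σ hL).trans (hc _ hL)
  rw [WF.val_of_isDeg_zero (DegC.toWF hd) hu, h5, Form.smul_val, Form.one_val hu,
    Algebra.algebraMap_eq_smul_one]

end

end Vale.Agent.P231.BX
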