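import Vale.Agent.P231.BX.FibQ
import Vale.Agent.P231.XC.PsiB

/-!
# P231, stage 3, block C5 (11): `e² = ± q c_l(T) + d(basic)`
-/

set_option linter.unusedSectionVars false
set_option linter.unusedVariables false

open Matrix Set Filter Topology MeasureTheory
open scoped ContDiff

namespace Vale.Agent.P231.BX

open Fm W H584 XC X3
open Vale.Agent.P231.Fm (Sm Dif Form Lam)

noncomputable section

variable {B : Type*} {DB : Dif B} {ι : Type} [Fintype ι] [DecidableEq ι] {φ : B × ℝ → B}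
  {P : B → Matrix ι ι ℝ} {l : ℕ}

theorem sgi_even {X : Type*} {D : Dif X} {a : Form D} (h : a.sg = a) (n : ℕ) :
    Form.sg^[n] a = a := by
  induction n with
  | zero => rfl
  | succ n ih => rw [Function.iterate_succ_apply', ih, h]

/-- **the square of `e` is a multiple of the top Chern form of `T ⊗ ℂ`** -/
theorem Jn.sq_eq {hφ : (DB.prod (Dif.lin ℝ)).Map DB φ} {dr : B × (ℝ × (ι → ℝ)) → B}
    {e : Form DB} (J : Jn DB P φ hφ dr e) [NeZero l] (h : Pj DB P l) {k : ℕ}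
    (hk : Form.IsDeg (k + 1) e) (hl : k + 1 = l) {q : ℝ}
    (hq : ∀ (L : Fr P l) (hL : Pl DB L), J.qT hL * J.qT hL = q) :
    ∃ ρ : Form DB, Basic φ hφ ρ ∧ e ^ 2 = (sgi l * q) • cF h l + ρ.d := by
  obtain ⟨ψ, h1, h2, h3, -⟩ := exists_psi_lft h J.inv hφ
  refine ⟨(bun h).SI (ob l) (J.Psi * ψ), SI_lft h J.inv hφ (Basic.mul J.Psi_bas h1), ?_⟩
  have h4 : (J.Psi * ψ).d = Form.pull XS.b map_b (e ^ 2) * ψ -
      J.Psi * Form.pull XS.b map_b (cF h l) := by
    rw [Form.d_mul, J.Psi_d, J.Psi_sg, h2, neg_mul, sub_eq_add_neg]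
  have h5 := (bun h).SI_d (ob l) (J.Psi * ψ)
  have h6 : (bun h).SI (ob l) J.Psi = (-(sgi l * q)) • 1 := J.SI_Psi h hk hl hq
  have h7 : Form.sg^[2 * l + 1] (e ^ 2) = e ^ 2 := sgi_even (by rw [Form.sg_pow, J.even]) _
  rw [h4, (bun h).SI_sub (ob l), (bun h).SI_π_mul (ob l), (bun h).SI_mul_π (ob l), h3, h6, h7,
    mul_neg, mul_one, smul_mul_assoc, one_mul, neg_smul, sub_neg_eq_add,
    show (-1 : ℝ) ^ (2 * l + 1) = -1 by rw [pow_succ, pow_mul]; norm_num, neg_smul,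
    one_smul] at h5
  have h8 : e ^ 2 = (sgi l * q) • cF h l -
      (-(e ^ 2) + (sgi l * q) • cF h l) := by abel
  rw [h5, sub_neg_eq_add] at h8
  exact h8

end

end Vale.Agent.P231.BX
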