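import Vale.Agent.P231.BX.Stk
import Vale.Agent.P231.TW.Prod
import Vale.Agent.P231.EN.Std

/-!
# P231, stage 3, block C5 (2): the product of two top forms on `ℝ^l ⊕ ℝ^l` in the complex basis
-/

set_option linter.unusedSectionVars false
set_option linter.unusedVariables false

open MeasureTheory Set Module Filter Topology Metric
open scoped ContDiff

namespace Vale.Agent.P231.BX

open Fm W H584 Vale.Agent.P231.WA Vale.Agent.P231.Co Vale.Agent.P231.S2I
open Q (dR Cut)
open Vale.Agent.P231.Fm (Sm Dif Form Lam)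

section Alg

variable {E : Type*} [NormedAddCommGroup E] [NormedSpace ℝ E] [FiniteDimensional ℝ E]

/-- `(-1)^(n(n-1)/2)` -/
def sgi : ℕ → ℝ
  | 0 => 1
  | (n + 1) => (-1) ^ n * sgi n

theorem sgi_six : sgi 6 = -1 := by
  norm_num [sgi]

/-- evaluation of a product on an interleaved family -/
theorem evalForm_inter {n : ℕ} (v : Fin (2 * n) → E) {A B : Lam E}
    (hA : inv A = (-1 : ℝ) ^ n • A)
    (h1 : ∀ j, iprod (v (EN.Std.i1 n j)) A = 0) (h2 : ∀ j, iprod (v (EN.Std.i0 n j)) B = 0) :
    evalForm (A * B) v = sgi n * (evalForm A (fun j => v (EN.Std.i0 n j)) *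
      evalForm B (fun j => v (EN.Std.i1 n j))) := by
  induction n generalizing A B with
  | zero =>
    rw [evalForm_apply, evalForm_apply, evalForm_apply]
    change aug (A * B) = sgi 0 * (aug A * aug B)
    rw [map_mul, sgi, one_mul]
  | succ n ih =>
    set v0 : E := v (EN.Std.i0 (n + 1) 0) with hv0
    set v1 : E := v (EN.Std.i1 (n + 1) 0) with hv1
    have e0 : (0 : Fin (2 * n + 2)) = EN.Std.i0 (n + 1) 0 := rfl
    have e1 : (1 : Fin (2 * n + 2)) = EN.Std.i1 (n + 1) 0 := by
      ext
      change (1 : Fin (2 * n + 2)).val = 2 * 0 + 1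
      rfl
    have k1 : cont v (A * B) = cont (fun i : Fin (2 * n) => v i.succ.succ)
        (iprod v1 (iprod v0 (A * B))) := by
      change cont (fun i : Fin (2 * n) => v i.succ.succ)
        (iprod (v (1 : Fin (2 * n + 2))) (iprod (v (0 : Fin (2 * n + 2))) (A * B))) = _
      rfl
    have k2 : iprod v0 (A * B) = iprod v0 A * B := by
      rw [iprod_mul, h2 0, mul_zero, add_zero]
    have k3 : iprod v1 (iprod v0 A) = 0 := by
      rw [iprod_anticomm, h1 0, map_zero, neg_zero]
    have hA' : inv (iprod v0 A) = (-1 : ℝ) ^ n • iprod v0 A := by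
      rw [inv_iprod, hA, map_smul, pow_succ]
      module
    have k4 : iprod v1 (iprod v0 A * B) = (-1 : ℝ) ^ n • (iprod v0 A * iprod v1 B) := by
      rw [iprod_mul, k3, zero_mul, zero_add, hA', smul_mul_assoc]
    have k5 := ih (fun i => v i.succ.succ) (A := iprod v0 A) (B := iprod v1 B) hA'
      (fun j => by
        change iprod (v (EN.Std.i1 (n + 1) j.succ)) (iprod v0 A) = 0
        rw [iprod_anticomm, h1, map_zero, neg_zero])
      (fun j => by
        change iprod (v (EN.Std.i0 (n + 1) j.succ)) (iprod v1 B) = 0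
        rw [iprod_anticomm, h2, map_zero, neg_zero])
    rw [evalForm_apply] at k5
    rw [evalForm_apply, k1, k2, k4, map_smul, map_smul, k5, sgi, smul_eq_mul]
    have k6 : evalForm A (fun j => v (EN.Std.i0 (n + 1) j)) =
        evalForm (iprod v0 A) (fun j => v ((EN.Std.i0 n j).succ.succ)) := rfl
    have k7 : evalForm B (fun j => v (EN.Std.i1 (n + 1) j)) =
        evalForm (iprod v1 B) (fun j => v ((EN.Std.i1 n j).succ.succ)) := rfl
    rw [k6, k7]
    ring

end Alg

end Vale.Agent.P231.BX
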