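import Vale.Agent.P231.XC.Frame
import Mathlib.MeasureTheory.Measure.Haar.InnerProductSpace
import Mathlib.MeasureTheory.Integral.Prod

/-!
# P231, stage 3, block C5 (7): integrals over `ℝ^(2l) = ℝ^l ⊕ ℝ^l` and `ℝ^(l+1) = ℝ ⊕ ℝ^l`
-/

set_option linter.unusedSectionVars false
set_option linter.unusedVariables false

open MeasureTheory Set Module Filter Topology
open scoped ContDiff

namespace Vale.Agent.P231.BX

open XC (Fl)

noncomputable section

/-- the model of a fibre of `T` -/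
abbrev El (l : ℕ) := EuclideanSpace ℝ (Fin l)

variable (l : ℕ)

/-- real parts -/
def ReL : Fl l →L[ℝ] El l := LinearMap.toContinuousLinearMap
  { toFun := fun y => WithLp.toLp 2 fun j => y (EN.Std.i0 l j)
    map_add' := fun x y => by ext j; rfl
    map_smul' := fun c y => by ext j; rfl }

/-- imaginary parts -/
def ImL : Fl l →L[ℝ] El l := LinearMap.toContinuousLinearMap
  { toFun := fun y => WithLp.toLp 2 fun j => y (EN.Std.i1 l j)
    map_add' := fun x y => by ext j; rfl
    map_smul' := fun c y => by ext j; rfl }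

@[simp] theorem ReL_apply (y : Fl l) (j : Fin l) : ReL l y j = y (EN.Std.i0 l j) := rfl

@[simp] theorem ImL_apply (y : Fl l) (j : Fin l) : ImL l y j = y (EN.Std.i1 l j) := rfl

theorem norm_sq_ReIm (y : Fl l) : ‖y‖ ^ 2 = ‖ReL l y‖ ^ 2 + ‖ImL l y‖ ^ 2 := by
  rw [EuclideanSpace.norm_sq_eq, EuclideanSpace.norm_sq_eq, EuclideanSpace.norm_sq_eq,
    EN.Std.sum_pairs, ← Finset.sum_add_distrib]
  rfl

/-- the isometry `ℝ^(2l) = ℝ^l ⊕ ℝ^l` -/
def isoRI : Fl l →ₗᵢ[ℝ] WithLp 2 (El l × El l) where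
  toFun y := WithLp.toLp 2 (ReL l y, ImL l y)
  map_add' x y := by rw [map_add, map_add]; rfl
  map_smul' c y := by rw [map_smul, map_smul]; rfl
  norm_map' y := by
    change ‖WithLp.toLp 2 (ReL l y, ImL l y)‖ = ‖y‖
    have h1 : ‖WithLp.toLp 2 (ReL l y, ImL l y)‖ ^ 2 = ‖y‖ ^ 2 := by
      rw [norm_sq_ReIm, WithLp.prod_norm_sq_eq_of_L2]
      rfl
    exact (sq_eq_sq₀ (norm_nonneg _) (norm_nonneg _)).1 h1

theorem finrank_RI : finrank ℝ (Fl l) = finrank ℝ (WithLp 2 (El l × El l)) := by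
  rw [(WithLp.linearEquiv 2 ℝ (El l × El l)).finrank_eq, Module.finrank_prod,
    finrank_euclideanSpace_fin, finrank_euclideanSpace_fin]
  ring

/-- **Fubini for `ℝ^(2l) = ℝ^l ⊕ ℝ^l`** -/
theorem integral_ReIm (G H : El l → ℝ) :
    ∫ y : Fl l, G (ReL l y) * H (ImL l y) = (∫ x, G x) * ∫ x, H x := by
  have h1 := ((isoRI l).toLinearIsometryEquiv (finrank_RI l)).measurePreserving
  have h2 : MeasurePreserving (WithLp.ofLp : WithLp 2 (El l × El l) → El l × El l) :=
    WithLp.volume_preserving_ofLp _ _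
  have h3 : MeasurePreserving (fun y : Fl l => (ReL l y, ImL l y)) := h2.comp h1
  have h4 : MeasurableEmbedding (fun y : Fl l => (ReL l y, ImL l y)) := by
    have e1 : MeasurableEmbedding ((isoRI l).toLinearIsometryEquiv (finrank_RI l)) :=
      ((isoRI l).toLinearIsometryEquiv (finrank_RI l)).toHomeomorph.measurableEmbedding
    have e2 : MeasurableEmbedding (WithLp.ofLp : WithLp 2 (El l × El l) → El l × El l) :=
      (WithLp.homeomorphProd 2 (El l) (El l)).measurableEmbedding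
    exact e2.comp e1
  rw [← integral_prod_mul (μ := volume) (ν := volume) G H]
  exact h3.integral_comp h4 (fun z => G z.1 * H z.2)

/-! ### the sum of a line and a space -/

/-- the first coordinate -/
def hdL : El (l + 1) →L[ℝ] ℝ := EuclideanSpace.proj 0

/-- the other coordinates -/
def tlL : El (l + 1) →L[ℝ] El l := LinearMap.toContinuousLinearMap
  { toFun := fun y => WithLp.toLp 2 fun j => y j.succ
    map_add' := fun x y => by ext j; rfl
    map_smul' := fun c y => by ext j; rfl }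

@[simp] theorem hdL_apply (y : El (l + 1)) : hdL l y = y 0 := rfl

@[simp] theorem tlL_apply (y : El (l + 1)) (j : Fin l) : tlL l y j = y j.succ := rfl

theorem norm_sq_HT (y : El (l + 1)) : ‖y‖ ^ 2 = hdL l y ^ 2 + ‖tlL l y‖ ^ 2 := by
  rw [EuclideanSpace.norm_sq_eq, EuclideanSpace.norm_sq_eq, Fin.sum_univ_succ, hdL_apply,
    Real.norm_eq_abs, sq_abs]
  rfl

/-- the isometry `ℝ^(l+1) = ℝ ⊕ ℝ^l` -/
def isoHT : El (l + 1) →ₗᵢ[ℝ] WithLp 2 (ℝ × El l) where
  toFun y := WithLp.toLp 2 (hdL l y, tlL l y)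
  map_add' x y := by rw [map_add, map_add]; rfl
  map_smul' c y := by rw [map_smul, map_smul]; rfl
  norm_map' y := by
    change ‖WithLp.toLp 2 (hdL l y, tlL l y)‖ = ‖y‖
    have h1 : ‖WithLp.toLp 2 (hdL l y, tlL l y)‖ ^ 2 = ‖y‖ ^ 2 := by
      rw [norm_sq_HT, WithLp.prod_norm_sq_eq_of_L2]
      change ‖hdL l y‖ ^ 2 + ‖tlL l y‖ ^ 2 = _
      rw [Real.norm_eq_abs, sq_abs]
    exact (sq_eq_sq₀ (norm_nonneg _) (norm_nonneg _)).1 h1

theorem finrank_HT : finrank ℝ (El (l + 1)) = finrank ℝ (WithLp 2 (ℝ × El l)) := by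
  rw [(WithLp.linearEquiv 2 ℝ (ℝ × El l)).finrank_eq, Module.finrank_prod,
    finrank_euclideanSpace_fin, finrank_euclideanSpace_fin, Module.finrank_self]
  ring

/-- **Fubini for `ℝ^(l+1) = ℝ ⊕ ℝ^l`** -/
theorem integral_HT {G : ℝ × El l → ℝ} (hG : Integrable G) :
    ∫ y : El (l + 1), G (hdL l y, tlL l y) = ∫ x : El l, ∫ s : ℝ, G (s, x) := by
  have h1 := ((isoHT l).toLinearIsometryEquiv (finrank_HT l)).measurePreserving
  have h2 : MeasurePreserving (WithLp.ofLp : WithLp 2 (ℝ × El l) → ℝ × El l) :=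
    WithLp.volume_preserving_ofLp _ _
  have h3 : MeasurePreserving (fun y : El (l + 1) => (hdL l y, tlL l y)) := h2.comp h1
  have h4 : MeasurableEmbedding (fun y : El (l + 1) => (hdL l y, tlL l y)) := by
    have e1 : MeasurableEmbedding ((isoHT l).toLinearIsometryEquiv (finrank_HT l)) :=
      ((isoHT l).toLinearIsometryEquiv (finrank_HT l)).toHomeomorph.measurableEmbedding
    have e2 : MeasurableEmbedding (WithLp.ofLp : WithLp 2 (ℝ × El l) → ℝ × El l) :=
      (WithLp.homeomorphProd 2 ℝ (El l)).measurableEmbedding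
    exact e2.comp e1
  rw [← integral_prod_symm (μ := volume) (ν := volume) G hG]
  exact h3.integral_comp h4 G

end

end Vale.Agent.P231.BX
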