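import Vale.Agent.P231.BX.Psi
import Vale.Agent.P231.BX.Cst
import Vale.Agent.P231.BX.Mea
import Vale.Agent.P231.BX.Inter
import Vale.Agent.P231.XC.Bun

/-!
# P231, stage 3, block C5 (8): the fibre integral of the primitive of `e²`
-/

set_option linter.unusedSectionVars false
set_option linter.unusedVariables false

open Matrix Set Filter Topology MeasureTheory
open scoped ContDiff

namespace Vale.Agent.P231.BX

open Fm W H584 XC X3
open Vale.Agent.P231.Fm (Sm Dif Form Lam)
open Vale.Agent.P231.CoC (map_cst)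
open Vale.Agent.P231.S2I (sint map_rad' dPt Pt dP)

noncomputable section

variable {B : Type*} {DB : Dif B} {ι : Type} [Fintype ι] [DecidableEq ι] {φ : B × ℝ → B}
  {P : B → Matrix ι ι ℝ} {l : ℕ}

/-- coordinates in a frame -/
def embf (f : Fin l → ι → ℝ) : El l →L[ℝ] (ι → ℝ) := LinearMap.toContinuousLinearMap
  { toFun := fun ξ i => ∑ j, ξ j * f j i
    map_add' := fun x y => by
      ext i
      simp only [PiLp.add_apply, add_mul, Finset.sum_add_distrib, Pi.add_apply]
    map_smul' := fun c y => by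
      ext i
      simp only [PiLp.smul_apply, smul_eq_mul, RingHom.id_apply, Pi.smul_apply, Finset.mul_sum,
        mul_assoc] }

theorem embf_apply (f : Fin l → ι → ℝ) (ξ : El l) (i : ι) : embf f ξ i = ∑ j, ξ j * f j i := rfl

theorem embf_eq (f : Fin l → ι → ℝ) (ξ : El l) : embf f ξ = ∑ j, ξ j • f j := by
  ext i
  rw [embf_apply, Finset.sum_apply]
  rfl

theorem mulVec_embf {A : Matrix ι ι ℝ} {f : Fin l → ι → ℝ} (h : IsFr A f) (ξ : El l) :
    A *ᵥ embf f ξ = embf f ξ := by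
  rw [embf_eq, Matrix.mulVec_sum]
  exact Finset.sum_congr rfl fun j _ => by rw [Matrix.mulVec_smul, h.fix]

theorem nq_embf {A : Matrix ι ι ℝ} {f : Fin l → ι → ℝ} (h : IsFr A f) (ξ : El l) :
    nq (embf f ξ) = ‖ξ‖ ^ 2 := by
  rw [nq, embf_eq, EuclideanSpace.norm_sq_eq, sum_dotProduct]
  refine Finset.sum_congr rfl fun j _ => ?_
  rw [dotProduct_sum]
  simp only [smul_dotProduct, dotProduct_smul, h.on, smul_eq_mul]
  rw [Finset.sum_eq_single j]
  · rw [if_pos rfl, mul_one, Real.norm_eq_abs, sq_abs, sq]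
  · intro k _ hk
    rw [if_neg (Ne.symm hk), mul_zero, mul_zero]
  · intro hj
    exact absurd (Finset.mem_univ j) hj

theorem vre_cmb (f : Fin l → ι → ℝ) (ξ : Fl l) : vre (cmb f (cz l ξ)) = embf f (ReL l ξ) := by
  ext i
  simp only [vre, cmb, embf_apply, Complex.re_sum, Complex.re_mul_ofReal, ReL_apply, cz_re]

theorem vim_cmb (f : Fin l → ι → ℝ) (ξ : Fl l) : vim (cmb f (cz l ξ)) = embf f (ImL l ξ) := by
  ext i
  simp only [vim, cmb, embf_apply, Complex.im_sum, Complex.im_mul_ofReal, ImL_apply, cz_im]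

/-- a fibre of `T` -/
def emb (L : Fr P l) (ξ : El l) : B × (ι → ℝ) := (L.b, embf L.f ξ)

/-- constant plots at a frame -/
structure Pl (DB : Dif B) (L : Fr P l) : Prop where
  map : dPt.Map (dFr DB P l) (fun _ => L)

theorem at_base {L : Fr P l} (hL : Pl DB L) {V : Type}
    [NormedAddCommGroup V] [NormedSpace ℝ V] [FiniteDimensional ℝ V] (x : V) :
    DB.At (fun _ => L.b) x := by
  have h1 : (dFr DB P l).At (fun _ : V => L) x :=
    Dif.comp _ (hL.map (S2I.pt_at (fun _ : ℝ => (0 : Pt)) 0)) (g := fun _ : V => (0 : ℝ)) (x := x)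
      (Sm.of_contDiff contDiff_const _)
  exact map_Fb h1

theorem map_emb {L : Fr P l} (hL : Pl DB L) :
    (Dif.lin (El l)).Map (dT DB P) (emb L) := fun {E} _ _ _ {u x} h => by
  refine ⟨⟨at_base hL x, ?_⟩, Eventually.of_forall fun y => mulVec_embf L.isFr _⟩
  change Sm (fun y => embf L.f (u y)) x
  have h1 : Sm u x := h
  filter_upwards [h1] with y hy
  exact (embf L.f).contDiff.contDiffAt.comp y hy

theorem map_ReL : (Dif.lin (Fl l)).Map (Dif.lin (El l)) (ReL l) := Dif.map_lin (ReL l).contDiff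

theorem map_ImL : (Dif.lin (Fl l)).Map (Dif.lin (El l)) (ImL l) := Dif.map_lin (ImL l).contDiff

namespace Jn

variable {hφ : (DB.prod (Dif.lin ℝ)).Map DB φ} {dr : B × (ℝ × (ι → ℝ)) → B} {e : Form DB}
  (J : Jn DB P φ hφ dr e) {L : Fr P l} (hL : Pl DB L)

/-- the Thom form on a fibre -/
def TL : Form (Dif.lin (El l)) := Form.pull (emb L) (map_emb hL) J.tau

/-- the primitive on a fibre -/
def CL : Form (Dif.lin (El l)) := Form.pull (emb L) (map_emb hL) J.C

theorem TL_d : (J.TL hL).d = 0 := by rw [TL, ← Form.pull_d, J.tau_closed, Co.pull_zero]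

theorem TL_sg : (J.TL hL).sg = J.TL hL := by rw [TL, ← Form.pull_sg, J.tau_sg]

theorem CL_d {k : ℕ} (hk : Form.IsDeg (k + 1) e) : (J.CL hL).d = -J.TL hL := by
  have hc : (Dif.lin (El l)).Map DB (fun _ => L.b) := fun {E} _ _ _ {u x} _ => at_base hL x
  have h1 : Form.pull (emb L) (map_emb hL) (Form.pull Prod.fst map_base e : Form (dT DB P)) = 0 :=
    (H584.pull_pull (map_emb hL) map_base hc (fun _ => rfl) e).trans
      (Form.pull_const_eq_zero hc hk)
  rw [CL, ← Form.pull_d, J.C_d, Co.pull_sub, h1, zero_sub, TL]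

theorem TL_val {x : El l} (hx : 1 / 4 < ‖x‖ ^ 2) : (J.TL hL).val id x = 0 := by
  rw [TL, Form.pull_val _ _ (at_lin x)]
  refine J.tau_val (map_emb hL (at_lin x)) ?_
  change 1 / 4 < nq (embf L.f x)
  rw [nq_embf L.isFr]
  exact hx

/-- the extension to the ball -/
def be : Form (Dif.lin (Fl l)) :=
  Form.pull (ReL l) map_ReL (J.TL hL) * Form.pull (ImL l) map_ImL (J.CL hL)

theorem be_d {k : ℕ} (hk : Form.IsDeg (k + 1) e) : (J.be hL).d =
    -(Form.pull (ReL l) map_ReL (J.TL hL) * Form.pull (ImL l) map_ImL (J.TL hL)) := by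
  rw [be, Form.d_mul, ← Form.pull_d, ← Form.pull_d, J.TL_d, J.CL_d hL hk, Co.pull_zero, zero_mul,
    zero_add, ← Form.pull_sg, J.TL_sg, Co.pull_neg, mul_neg]

/-- the integrand -/
def gT (x : El l) : ℝ := evalForm ((J.TL hL).val id x) (EuclideanSpace.basisFun (Fin l) ℝ)

theorem be_val {k : ℕ} (hk : Form.IsDeg (k + 1) e) (y : Fl l) : (J.be hL).d.val id y =
    -(Fm.pull (ReL l) ((J.TL hL).val id (ReL l y)) *
      Fm.pull (ImL l) ((J.TL hL).val id (ImL l y))) := by
  rw [J.be_d hL hk, Form.neg_val, Form.mul_val, Form.pull_val _ _ (at_lin y),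
    Form.pull_val _ _ (at_lin y), lin_val _ (map_ReL (at_lin y)), lin_val _ (map_ImL (at_lin y))]
  have h1 : fderiv ℝ (ReL l ∘ (id : Fl l → Fl l)) y = ReL l := (ReL l).fderiv
  have h2 : fderiv ℝ (ImL l ∘ (id : Fl l → Fl l)) y = ImL l := (ImL l).fderiv
  rw [h1, h2]
  rfl

theorem be_zero {k : ℕ} (hk : Form.IsDeg (k + 1) e) (y : Fl l) (hy : 9 / 10 < ‖y‖) :
    (J.be hL).d.val id y = 0 := by
  rw [J.be_val hL hk]
  have h1 := norm_sq_ReIm l y
  have h2 : 81 / 100 < ‖y‖ ^ 2 := by nlinarith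
  rcases lt_or_ge (1 / 4) (‖ReL l y‖ ^ 2) with h3 | h3
  · rw [J.TL_val hL h3, map_zero, zero_mul, neg_zero]
  · rw [J.TL_val hL (x := ImL l y) (by linarith), map_zero, mul_zero, neg_zero]

theorem ReL_i0 (j : Fin l) : ReL l (EuclideanSpace.basisFun (Fin (2 * l)) ℝ (EN.Std.i0 l j)) =
    EuclideanSpace.basisFun (Fin l) ℝ j := by
  ext k
  rw [ReL_apply, EuclideanSpace.basisFun_apply, EuclideanSpace.basisFun_apply]
  by_cases h : k = j
  · subst h
    simp
  · have : EN.Std.i0 l k ≠ EN.Std.i0 l j := fun h' => h (by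
      have := congrArg Fin.val h'
      simp only [EN.Std.i0] at this
      exact Fin.ext (by omega))
    simp [h, this]

theorem ReL_i1 (j : Fin l) :
    ReL l (EuclideanSpace.basisFun (Fin (2 * l)) ℝ (EN.Std.i1 l j)) = 0 := by
  ext k
  rw [ReL_apply, EuclideanSpace.basisFun_apply]
  have : EN.Std.i0 l k ≠ EN.Std.i1 l j := fun h' => by
    have := congrArg Fin.val h'
    simp only [EN.Std.i0, EN.Std.i1] at this
    omega
  simp [this]

theorem ImL_i1 (j : Fin l) : ImL l (EuclideanSpace.basisFun (Fin (2 * l)) ℝ (EN.Std.i1 l j)) =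
    EuclideanSpace.basisFun (Fin l) ℝ j := by
  ext k
  rw [ImL_apply, EuclideanSpace.basisFun_apply, EuclideanSpace.basisFun_apply]
  by_cases h : k = j
  · subst h
    simp
  · have : EN.Std.i1 l k ≠ EN.Std.i1 l j := fun h' => h (by
      have := congrArg Fin.val h'
      simp only [EN.Std.i1] at this
      exact Fin.ext (by omega))
    simp [h, this]

theorem ImL_i0 (j : Fin l) :
    ImL l (EuclideanSpace.basisFun (Fin (2 * l)) ℝ (EN.Std.i0 l j)) = 0 := by
  ext k
  rw [ImL_apply, EuclideanSpace.basisFun_apply]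
  have : EN.Std.i1 l k ≠ EN.Std.i0 l j := fun h' => by
    have := congrArg Fin.val h'
    simp only [EN.Std.i0, EN.Std.i1] at this
    omega
  simp [this]

/-- the value of the integrand -/
theorem evalForm_be {k : ℕ} (hk : Form.IsDeg (k + 1) e) (hl : k + 1 = l) (y : Fl l) :
    evalForm ((J.be hL).d.val id y) (EuclideanSpace.basisFun (Fin (2 * l)) ℝ) =
      -(sgi l * (J.gT hL (ReL l y) * J.gT hL (ImL l y))) := by
  have hdeg : Form.IsDeg l (J.TL hL) := Co.degc ((J.isDeg_tau hk).pull _ (map_emb hL)) hl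
  have h1 : Fm.inv (Fm.pull (ReL l) ((J.TL hL).val id (ReL l y))) =
      (-1 : ℝ) ^ l • Fm.pull (ReL l) ((J.TL hL).val id (ReL l y)) := by
    have h2 := congrArg (fun w : Form (Dif.lin (El l)) => w.val id (ReL l y)) hdeg.sg
    change Fm.inv ((J.TL hL).val id (ReL l y)) = (-1 : ℝ) ^ l • (J.TL hL).val id (ReL l y) at h2
    rw [← map_smul, ← h2, Fm.pull_inv]
  have h3 := evalForm_inter (n := l) (fun i => EuclideanSpace.basisFun (Fin (2 * l)) ℝ i)
    (A := Fm.pull (ReL l) ((J.TL hL).val id (ReL l y)))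
    (B := Fm.pull (ImL l) ((J.TL hL).val id (ImL l y))) h1
    (fun j => by rw [pull_iprod, ReL_i1, Q.iprod_zero_left, map_zero])
    (fun j => by rw [pull_iprod, ImL_i0, Q.iprod_zero_left, map_zero])
  rw [J.be_val hL hk]
  rw [evalForm_apply, map_neg, map_neg, ← evalForm_apply, h3, evalForm_pull, evalForm_pull]
  simp only [ReL_i0, ImL_i1]
  rfl

end Jn

end

end Vale.Agent.P231.BX
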