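import Vale.Agent.P231.BX.FibP

/-!
# P231, stage 3, block C5 (9): the fibre integral of the primitive of `e²`: the result
-/

set_option linter.unusedSectionVars false
set_option linter.unusedVariables false

open Matrix Set Filter Topology MeasureTheory
open scoped ContDiff

namespace Vale.Agent.P231.BX

open Fm W H584 XC X3
open Vale.Agent.P231.Fm (Sm Dif Form Lam)
open Vale.Agent.P231.CoC (map_cst)
open Vale.Agent.P231.S2I (sint map_rad' dPt Pt dP)

noncomputable section

variable {B : Type*} {DB : Dif B} {ι : Type} [Fintype ι] [DecidableEq ι] {φ : B × ℝ → B}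
  {P : B → Matrix ι ι ℝ} {l : ℕ}

namespace Jn

variable {hφ : (DB.prod (Dif.lin ℝ)).Map DB φ} {dr : B × (ℝ × (ι → ℝ)) → B} {e : Form DB}
  (J : Jn DB P φ hφ dr e) {L : Fr P l} (hL : Pl DB L)

/-- the integral of the Thom form over a fibre -/
def qT : ℝ := ∫ x, J.gT hL x

/-- the restriction of the primitive to a fibre -/
theorem pull_Psi [NeZero l] (h : Pj DB P l) {k : ℕ} (hk : Form.IsDeg (k + 1) e) :
    Form.pull (fun y => ev (P := P) (L, rad y)) (map_cst hL.map (bun h)) J.Psi =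
      Form.pull rad map_radL (J.be hL) := by
  have hb : (dP (Fl l)).Map DB (fun _ => L.b) := fun {E} _ _ _ {u x} _ => at_base hL x
  refine Form.ext_val fun E _ _ _ u x hu => ?_
  have h1 : (dX DB P).At (fun y => ev (P := P) (L, rad (u y))) x := map_cst hL.map (bun h) hu
  have h2 : (Dif.lin (Fl l)).At (rad ∘ u) x := map_radL hu
  have hn : ∀ᶠ y in 𝓝 x, ‖(rad (u y) : Fl l)‖ = 1 := hu.2.mono fun y hy => norm_rad hy
  have e0 : XS.b ∘ (fun y => ev (P := P) (L, rad (u y))) = fun _ => L.b :=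
    funext fun y => ev_b _
  have ex : zx ∘ (fun y => ev (P := P) (L, rad (u y))) =ᶠ[𝓝 x]
      emb L ∘ (ReL l ∘ (rad ∘ u)) := by
    filter_upwards [hn] with y hy
    change (_, vre (ev (P := P) (L, rad (u y))).z) = (L.b, embf L.f (ReL l (rad (u y))))
    rw [ev_z' _ _ hy, ev_b, vre_cmb]
  have ey : zy ∘ (fun y => ev (P := P) (L, rad (u y))) =ᶠ[𝓝 x]
      emb L ∘ (ImL l ∘ (rad ∘ u)) := by
    filter_upwards [hn] with y hy
    change (_, vim (ev (P := P) (L, rad (u y))).z) = (L.b, embf L.f (ImL l (rad (u y))))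
    rw [ev_z' _ _ hy, ev_b, vim_cmb]
  have k0 : (Form.pull XS.b map_b e : Form (dX DB P)).val
      (fun y => ev (P := P) (L, rad (u y))) x = 0 := by
    rw [Form.pull_val _ _ h1, e0]
    have h3 := congrArg (fun w : Form (dP (Fl l)) => w.val u x) (Form.pull_const_eq_zero hb hk)
    change (Form.pull (fun _ => L.b) hb e).val u x = 0 at h3
    rwa [Form.pull_val _ _ hu] at h3
  have k1 : J.tx.val (fun y => ev (P := P) (L, rad (u y))) x =
      (Form.pull (ReL l) map_ReL (J.TL hL)).val (rad ∘ u) x := by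
    rw [tx, Form.pull_val _ _ h1, Form.pull_val _ _ h2, TL, Form.pull_val _ _ (map_ReL h2)]
    exact J.tau.congr (map_zx h1) ex
  have k2 : J.Cy.val (fun y => ev (P := P) (L, rad (u y))) x =
      (Form.pull (ImL l) map_ImL (J.CL hL)).val (rad ∘ u) x := by
    rw [Cy, Form.pull_val _ _ h1, Form.pull_val _ _ h2, CL, Form.pull_val _ _ (map_ImL h2)]
    exact J.C.congr (map_zy h1) ey
  rw [Form.pull_val _ _ hu, Form.pull_val _ _ hu, Psi, be]
  change J.Cx.val _ x * (Form.pull XS.b map_b e).val (fun y => ev (P := P) (L, rad (u y))) x +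
    J.tx.val (fun y => ev (P := P) (L, rad (u y))) x *
      J.Cy.val (fun y => ev (P := P) (L, rad (u y))) x = _
  rw [k0, k1, k2, mul_zero, zero_add]
  rfl

/-- the integral over a fibre -/
theorem sint_Psi [NeZero l] (h : Pj DB P l) {k : ℕ} (hk : Form.IsDeg (k + 1) e) (hl : k + 1 = l) :
    sint (EuclideanSpace.basisFun (Fin (2 * l)) ℝ)
      (Form.pull (fun y => ev (P := P) (L, rad y)) (map_cst hL.map (bun h)) J.Psi) =
      -(sgi l * (J.qT hL * J.qT hL)) := by
  rw [J.pull_Psi hL h hk, sint_eq_int _ (J.be hL) (R := 9 / 10) (by norm_num) (by norm_num)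
    (J.be_zero hL hk)]
  simp only [J.evalForm_be hL hk hl]
  rw [integral_neg, integral_const_mul, integral_ReIm]
  rfl

/-- **the fibre integral of the primitive of `e²`** -/
theorem SI_Psi [NeZero l] (h : Pj DB P l) {k : ℕ} (hk : Form.IsDeg (k + 1) e) (hl : k + 1 = l)
    {q : ℝ} (hq : ∀ (L : Fr P l) (hL : Pl DB L), J.qT hL * J.qT hL = q) :
    (bun h).SI (EuclideanSpace.basisFun (Fin (2 * l)) ℝ) J.Psi = (-(sgi l * q)) • 1 := by
  refine SI_const _ (bun h) (J.isDeg_Psi hk) (by omega) fun L hL => ?_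
  rw [← hq L ⟨hL⟩]
  exact J.sint_Psi ⟨hL⟩ h hk hl

end Jn

end

end Vale.Agent.P231.BX
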