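import Vale.Agent.P231.BX.Eul
import Vale.Agent.P231.S3S.Xi
import Vale.Agent.P231.S3C.PX

/-!
# P231, stage 3, block C5 (13): the bundle `T` on the space of pairs
-/

set_option maxSynthPendingDepth 3
set_option linter.unusedSectionVars false
set_option linter.unusedVariables false

open Bundle Manifold Set Filter Module Matrix
open scoped ContDiff Manifold Topology

namespace Vale.Agent.P231.BX

noncomputable section

open Vale.Agent.P234 Vale.Agent.P231 Vale.Agent.P231.Fm Vale.Agent.P231.W Vale.Agent.P231.WR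
  Vale.Agent.P231.H775 Vale.Agent.P231.S2N Vale.Agent.P231.ChW Vale.Agent.P231.X3
  Vale.Agent.P231.S3S Vale.Agent.P231.S3C

variable {E : Type*} [NormedAddCommGroup E] [NormedSpace ℝ E]
  {M : Type*} [MetricSpace M] [ChartedSpace E M]
  [RiemannianBundle (fun x : M => TangentSpace 𝓘(ℝ, E) x)]
  {e : ∀ x : M, TangentSpace 𝓘(ℝ, E) x → M}
  [FiniteDimensional ℝ E] [IsManifold 𝓘(ℝ, E) ∞ M]
  [IsContMDiffRiemannianBundle 𝓘(ℝ, E) ∞ E (fun x : M => TangentSpace 𝓘(ℝ, E) x)]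
  [CompactSpace M] [ConnectedSpace M] [IsRiemannianManifold 𝓘(ℝ, E) M]

variable {D : ℝ} {ι : Type} [Fintype ι] [DecidableEq ι]

/-- the unit vector of a pair in coordinates -/
def av (F : Facts e) (hD : 0 < D) (hB : InjGE e D) (hdiam : ∀ p q : M, dist p q ≤ D)
    (X δ : ι → UT E M → E) (ε : ℝ) (b : Pr e D) : ι → ℝ :=
  WithLp.ofLp (ah F hD hB hdiam X δ ε b)

/-- the projection onto the orthogonal complement of the vector of the pair -/
def Pt (F : Facts e) (hD : 0 < D) (hB : InjGE e D) (hdiam : ∀ p q : M, dist p q ≤ D)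
    (X δ : ι → UT E M → E) (ε : ℝ) (b : Pr e D) : Matrix ι ι ℝ :=
  pX F D X δ ε b.v - vecMulVec (av F hD hB hdiam X δ ε b) (av F hD hB hdiam X δ ε b)

variable {F : Facts e} {hD : 0 < D} {hB : InjGE e D} {hdiam : ∀ p q : M, dist p q ≤ D}
  {l : ℕ} {X δ : ι → UT E M → E} {ε : ℝ}
  (hP : ∀ x y : M, dist x y = D → finrank ℝ (H775.Pl e D x y) = l + 1)
  (h : S2N.Fam F hD hB hdiam l X δ ε)

theorem nq_ofLp (x : EuclideanSpace ℝ ι) : nq (WithLp.ofLp x) = ‖x‖ ^ 2 := by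
  rw [nq, EuclideanSpace.norm_sq_eq, dotProduct]
  refine Finset.sum_congr rfl fun i _ => ?_
  rw [Real.norm_eq_abs, sq_abs, sq]

include hP h in
theorem nq_av (b : Pr e D) : av F hD hB hdiam X δ ε b ⬝ᵥ av F hD hB hdiam X δ ε b = 1 := by
  have h1 := nq_ofLp (ah F hD hB hdiam X δ ε b)
  rw [norm_ah hP h, one_pow] at h1
  exact h1

theorem pX_ofLp (v : UT E M) (x : EuclideanSpace ℝ ι) :
    pX F D X δ ε v *ᵥ WithLp.ofLp x = WithLp.ofLp (Pm F D X δ ε v x) :=
  funext fun i => pX_mulVec F D X δ ε v x i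

include hP h in
theorem pX_av (b : Pr e D) : pX F D X δ ε b.v *ᵥ av F hD hB hdiam X δ ε b =
    av F hD hB hdiam X δ ε b := by
  rw [av, pX_ofLp, Pm_ah hP h]

include hP h in
theorem av_pX (b : Pr e D) : av F hD hB hdiam X δ ε b ᵥ* pX F D X δ ε b.v =
    av F hD hB hdiam X δ ε b := by
  rw [← Matrix.mulVec_transpose, pX_symm h, pX_av hP h]

include hP h in
theorem Pt_av (b : Pr e D) : Pt F hD hB hdiam X δ ε b *ᵥ av F hD hB hdiam X δ ε b = 0 := by
  rw [Pt, Matrix.sub_mulVec, pX_av hP h, Matrix.vecMulVec_mulVec, nq_av hP h]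
  simp

include hP h in
theorem Pt_idem (b : Pr e D) : Pt F hD hB hdiam X δ ε b * Pt F hD hB hdiam X δ ε b =
    Pt F hD hB hdiam X δ ε b := by
  have h1 : Pt F hD hB hdiam X δ ε b * Pt F hD hB hdiam X δ ε b =
      Pt F hD hB hdiam X δ ε b * pX F D X δ ε b.v -
        vecMulVec (Pt F hD hB hdiam X δ ε b *ᵥ av F hD hB hdiam X δ ε b)
          (av F hD hB hdiam X δ ε b) := by
    conv_lhs => rw [Pt, Matrix.mul_sub, Matrix.mul_vecMulVec]
    rfl
  rw [h1, Pt_av hP h, Matrix.zero_vecMulVec, sub_zero, Pt, Matrix.sub_mul, pX_idem h,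
    Matrix.vecMulVec_mul, av_pX hP h]

include h in
theorem Pt_symm (b : Pr e D) : (Pt F hD hB hdiam X δ ε b)ᵀ = Pt F hD hB hdiam X δ ε b := by
  rw [Pt, Matrix.transpose_sub, pX_symm h, Matrix.transpose_vecMulVec]

include hP h in
theorem sm_av (i : ι) : SmF (dPr e D) (fun b => av F hD hB hdiam X δ ε b i) :=
  SmF.of fun {E'} _ _ _ {u x} hu => sm_coord (map_ah hP h hu) i

include hP h in
theorem Pt_smooth : SmM (dPr e D) (Pt F hD hB hdiam X δ ε) := fun i j =>
  ((pX_smooth h i j).comp map_v).sub ((sm_av hP h i).mul (sm_av hP h j))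

include hP h in
theorem Pt_trace (b : Pr e D) : trace (Pt F hD hB hdiam X δ ε b) = l - 1 := by
  rw [Pt, Matrix.trace_sub, pX_trace h, Matrix.trace_vecMulVec, nq_av hP h]

theorem av_Lam (b : Pr e D) (t : ℝ) : av F hD hB hdiam X δ ε (Lam hP h (b, t)) =
    av F hD hB hdiam X δ ε b := by
  rw [av, ah_Lam hP h, av]

theorem Pt_Lam (b : Pr e D) (t : ℝ) : Pt F hD hB hdiam X δ ε (Lam hP h (b, t)) =
    Pt F hD hB hdiam X δ ε b := by
  rw [Pt, av_Lam hP h, Lam_v, pX_phi F hD hB hdiam, Pt]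

include hP h in
/-- vectors of `T` are vectors of `ξ` orthogonal to the vector of the pair -/
theorem of_Pt {b : Pr e D} {x : ι → ℝ} (hx : Pt F hD hB hdiam X δ ε b *ᵥ x = x) :
    av F hD hB hdiam X δ ε b ⬝ᵥ x = 0 ∧ pX F D X δ ε b.v *ᵥ x = x := by
  have h1 : av F hD hB hdiam X δ ε b ⬝ᵥ x = 0 := by
    have h2 := Pt_av hP h b
    rw [← hx, Matrix.dotProduct_mulVec, ← Matrix.mulVec_transpose, Pt_symm h, h2,
      zero_dotProduct]
  refine ⟨h1, ?_⟩
  have h3 := hx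
  rw [Pt, Matrix.sub_mulVec, Matrix.vecMulVec_mulVec, h1] at h3
  simpa using h3

end

end Vale.Agent.P231.BX
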