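import Vale.Agent.P231.BX.InsA

/-!
# P231, stage 3, block C5 (14): the ray map on the space of pairs
-/

set_option maxSynthPendingDepth 3
set_option linter.unusedSectionVars false
set_option linter.unusedVariables false

open Bundle Manifold Set Filter Module Matrix
open scoped ContDiff Manifold Topology

namespace Vale.Agent.P231.BX

noncomputable section

open Vale.Agent.P234 Vale.Agent.P231 Vale.Agent.P231.Fm Vale.Agent.P231.W Vale.Agent.P231.WR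
  Vale.Agent.P231.H775 Vale.Agent.P231.S2N Vale.Agent.P231.ChW Vale.Agent.P231.X3
  Vale.Agent.P231.S3S Vale.Agent.P231.S3C

variable {E : Type*} [NormedAddCommGroup E] [NormedSpace ℝ E]
  {M : Type*} [MetricSpace M] [ChartedSpace E M]
  [RiemannianBundle (fun x : M => TangentSpace 𝓘(ℝ, E) x)]
  {e : ∀ x : M, TangentSpace 𝓘(ℝ, E) x → M}
  [FiniteDimensional ℝ E] [IsManifold 𝓘(ℝ, E) ∞ M]
  [IsContMDiffRiemannianBundle 𝓘(ℝ, E) ∞ E (fun x : M => TangentSpace 𝓘(ℝ, E) x)]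
  [CompactSpace M] [ConnectedSpace M] [IsRiemannianManifold 𝓘(ℝ, E) M]

variable {D : ℝ} {ι : Type} [Fintype ι] [DecidableEq ι]
variable {F : Facts e} {hD : 0 < D} {hB : InjGE e D} {hdiam : ∀ p q : M, dist p q ≤ D}
  {l : ℕ} {X δ : ι → UT E M → E} {ε : ℝ}
  (hP : ∀ x y : M, dist x y = D → finrank ℝ (H775.Pl e D x y) = l + 1)
  (h : S2N.Fam F hD hB hdiam l X δ ε)

/-- the raw sum -/
def rs (F : Facts e) (hD : 0 < D) (hB : InjGE e D) (hdiam : ∀ p q : M, dist p q ≤ D)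
    (X δ : ι → UT E M → E) (ε : ℝ) (p : Pr e D × (ℝ × (ι → ℝ))) : EuclideanSpace ℝ ι :=
  p.2.1 • ah F hD hB hdiam X δ ε p.1 + WithLp.toLp 2 p.2.2

/-- the sum as a vector of `ξ` -/
def xiN (h : S2N.Fam F hD hB hdiam l X δ ε) (p : Pr e D × (ℝ × (ι → ℝ))) : Xi F D X δ ε where
  v := p.1.v
  a := Pm F D X δ ε p.1.v (rs F hD hB hdiam X δ ε p)
  pm := h.Pm_Pm _ _

@[simp] theorem xiN_v (p : Pr e D × (ℝ × (ι → ℝ))) : (xiN h p).v = p.1.v := rfl

theorem xiN_a (p : Pr e D × (ℝ × (ι → ℝ))) :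
    (xiN h p).a = Pm F D X δ ε p.1.v (rs F hD hB hdiam X δ ε p) := rfl

include hP in
theorem map_xiN : ((dPr e D).prod (Dif.lin (ℝ × (ι → ℝ)))).Map (dXi F D X δ ε) (xiN h) := by
  intro E' _ _ _ u x hu
  have h1 : (dUT E M).At (fun s => (u s).1.v) x := map_v hu.1
  have h2 := h.sm_Pm h1
  have h3 : Sm (fun s => ah F hD hB hdiam X δ ε (u s).1) x := map_ah hP h hu.1
  have h4 : Sm (fun s => (u s).2) x := hu.2
  refine ⟨h1, ?_⟩
  change Sm (fun s => Pm F D X δ ε (u s).1.v (rs F hD hB hdiam X δ ε (u s))) x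
  filter_upwards [h2, h3, h4] with s k2 k3 k4
  refine k2.clm_apply (ContDiffAt.add ((contDiff_fst.contDiffAt.comp s k4).smul k3) ?_)
  exact (PiLp.continuousLinearEquiv 2 ℝ (fun _ : ι => ℝ)).symm.contDiff.contDiffAt.comp s
    (contDiff_snd.contDiffAt.comp s k4)

open Classical in
/-- the ray map -/
def drP (p : Pr e D × (ℝ × (ι → ℝ))) : Pr e D :=
  if hne : (xiN h p).a ≠ 0 then dir hP h ⟨xiN h p, hne⟩ else p.1

theorem drP_of {p : Pr e D × (ℝ × (ι → ℝ))} (hne : (xiN h p).a ≠ 0) :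
    drP hP h p = dir hP h ⟨xiN h p, hne⟩ := dif_pos hne

theorem drP_out {p : Pr e D × (ℝ × (ι → ℝ))} (hne : ¬ (xiN h p).a ≠ 0) :
    drP hP h p = p.1 := dif_neg hne

theorem drP_Lam (p : Pr e D × (ℝ × (ι → ℝ))) (t : ℝ) :
    drP hP h (Lam hP h (p.1, t), p.2) = Lam hP h (drP hP h p, t) := by
  have h1 : (xiN h (Lam hP h (p.1, t), p.2)) = flXi F hD hB hdiam X δ ε (xiN h p, t) := by
    refine Xi.ext rfl ?_
    rw [flXi_a, xiN_a, xiN_a, rs, rs]
    change Pm F D X δ ε (Lam hP h (p.1, t)).v (p.2.1 • ah F hD hB hdiam X δ ε (Lam hP h (p.1, t)) +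
      WithLp.toLp 2 p.2.2) = _
    rw [ah_Lam hP h, Lam_v, Fam.Pm_phi F hD hB hdiam]
  by_cases hne : (xiN h p).a ≠ 0
  · have hne' : (xiN h (Lam hP h (p.1, t), p.2)).a ≠ 0 := by
      rw [h1]
      exact hne
    rw [drP_of hP h hne, drP_of hP h hne', Lam_dir hP h]
    refine dir_congr hP h ?_ ?_
    · change (xiN h (Lam hP h (p.1, t), p.2)).v = _
      rw [h1]
    · change ‖(xiN h (Lam hP h (p.1, t), p.2)).a‖⁻¹ • (xiN h (Lam hP h (p.1, t), p.2)).a = _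
      rw [h1]
  · have hne' : ¬ (xiN h (Lam hP h (p.1, t), p.2)).a ≠ 0 := by
      rw [h1]
      exact hne
    rw [drP_out hP h hne, drP_out hP h hne']

include hP in
/-- the sum of orthogonal vectors -/
theorem rs_of {p : Pr e D × (ℝ × (ι → ℝ))}
    (hp : Pt F hD hB hdiam X δ ε p.1 *ᵥ p.2.2 = p.2.2) :
    (xiN h p).a = rs F hD hB hdiam X δ ε p ∧
      ‖rs F hD hB hdiam X δ ε p‖ ^ 2 = p.2.1 * p.2.1 + nq p.2.2 := by
  obtain ⟨h1, h2⟩ := of_Pt hP h hp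
  have h3 : Pm F D X δ ε p.1.v (WithLp.toLp 2 p.2.2) = WithLp.toLp 2 p.2.2 := by
    have h4 := pX_ofLp (F := F) (D := D) (X := X) (δ := δ) (ε := ε) p.1.v (WithLp.toLp 2 p.2.2)
    change pX F D X δ ε p.1.v *ᵥ p.2.2 = _ at h4
    rw [h2] at h4
    exact (congrArg (WithLp.toLp 2) h4).symm
  refine ⟨?_, ?_⟩
  · rw [xiN_a, rs, map_add, map_smul, Pm_ah hP h, h3]
  · rw [← nq_ofLp, rs]
    change nq (p.2.1 • av F hD hB hdiam X δ ε p.1 + p.2.2) = _
    rw [nq, add_dotProduct, dotProduct_add, dotProduct_add, smul_dotProduct, dotProduct_smul,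
      nq_av hP h, smul_dotProduct, h1, dotProduct_smul, dotProduct_comm p.2.2, h1, nq]
    simp

include hP in
theorem xiN_ne {p : Pr e D × (ℝ × (ι → ℝ))}
    (hp : Pt F hD hB hdiam X δ ε p.1 *ᵥ p.2.2 = p.2.2) (h0 : p.2 ≠ 0) : (xiN h p).a ≠ 0 := by
  obtain ⟨h1, h2⟩ := rs_of hP h hp
  rw [h1, ← norm_ne_zero_iff]
  intro h3
  rw [h3] at h2
  have h4 := nq_nonneg p.2.2
  have h5 := mul_self_nonneg p.2.1
  have h6 : p.2.1 * p.2.1 = 0 := by nlinarith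
  have h7 : nq p.2.2 = 0 := by nlinarith
  refine h0 (Prod.ext (mul_self_eq_zero.1 h6) ?_)
  exact dotProduct_self_eq_zero.1 h7

theorem map_drP : ((dN (dPr e D) (Pt F hD hB hdiam X δ ε)).on (NZ (Pr e D) ι)).Map (dPr e D)
    (drP hP h) := by
  intro E' _ _ _ u x hu
  have h1 : (dXi F D X δ ε).At (fun s => xiN h (u s)) x := map_xiN hP h hu.1.1
  have h2 : ∀ᶠ s in 𝓝 x, (xiN h (u s)).a ≠ 0 := by
    filter_upwards [hu.1.2, hu.2] with s k1 k2
    exact xiN_ne hP h k1 k2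
  obtain ⟨Q, hQ, hQ'⟩ := exists_dir hP h h1 h2.self_of_nhds
  refine (dPr e D).congr hQ ?_
  filter_upwards [h2] with s hs
  rw [hQ' s hs]
  exact (drP_of hP h hs).symm

theorem Pt_zero_vec (b : Pr e D) : Pt F hD hB hdiam X δ ε b *ᵥ (0 : ι → ℝ) = 0 :=
  Matrix.mulVec_zero _

/-- the values of the ray map on the line of the pair -/
theorem drP_line (b : Pr e D) {c : ℝ} (hc : c ≠ 0) :
    (drP hP h (b, (c, 0))).v = b.v ∧ ah F hD hB hdiam X δ ε (drP hP h (b, (c, 0))) =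
      (‖c‖⁻¹ * c) • ah F hD hB hdiam X δ ε b := by
  have h0 : ((c, 0) : ℝ × (ι → ℝ)) ≠ 0 := fun h => hc (congrArg Prod.fst h)
  have h1 := xiN_ne hP h (p := (b, (c, 0))) (Pt_zero_vec b) h0
  have h2 := (rs_of hP h (p := (b, (c, 0))) (Pt_zero_vec b)).1
  have h3 : rs F hD hB hdiam X δ ε (b, (c, 0)) = c • ah F hD hB hdiam X δ ε b := by
    rw [rs]
    change c • ah F hD hB hdiam X δ ε b + WithLp.toLp 2 (0 : ι → ℝ) = _
    rw [WithLp.toLp_zero, add_zero]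
  rw [drP_of hP h h1]
  refine ⟨rfl, ?_⟩
  rw [ah_dir hP h]
  change ‖(xiN h (b, (c, 0))).a‖⁻¹ • (xiN h (b, (c, 0))).a = _
  rw [h2, h3, norm_smul, norm_ah hP h, mul_one, smul_smul]

theorem drP_pos (b : Pr e D) : drP hP h (b, (1, 0)) = b := by
  obtain ⟨h1, h2⟩ := drP_line hP h b one_ne_zero
  refine pr_ext hP h h1 ?_
  rw [h2]
  norm_num

theorem ah_ngP (b : Pr e D) : ah F hD hB hdiam X δ ε (H766.ngP F hD hB hdiam b) =
    -ah F hD hB hdiam X δ ε b := by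
  have h1 : ab F hD hB hdiam X δ ε (H766.ngP F hD hB hdiam b) = -ab F hD hB hdiam X δ ε b := by
    have k := am_smul F hD hB hdiam X δ ε b.v (-1) (vec' b.w)
    rw [neg_smul, neg_smul, one_smul, one_smul] at k
    exact k
  unfold ah
  rw [h1, norm_neg, smul_neg]

theorem drP_neg (b : Pr e D) : drP hP h (b, (-1, 0)) = H766.ngP F hD hB hdiam b := by
  obtain ⟨h1, h2⟩ := drP_line hP h b (c := -1) (by norm_num)
  refine pr_ext hP h (h1.trans (H766.ngP_v F hD hB hdiam b).symm) ?_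
  rw [h2, ah_ngP]
  norm_num

end

end Vale.Agent.P231.BX
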