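import Vale.Agent.P231.BX.InsB

/-!
# P231, stage 3, block C5 (15): the bundle `T` on the space of pairs
-/

set_option maxSynthPendingDepth 3
set_option linter.unusedSectionVars false
set_option linter.unusedVariables false

open Bundle Manifold Set Filter Module Matrix
open scoped ContDiff Manifold Topology

namespace Vale.Agent.P231.BX

noncomputable section

open Vale.Agent.P234 Vale.Agent.P231 Vale.Agent.P231.Fm Vale.Agent.P231.W Vale.Agent.P231.WR
  Vale.Agent.P231.H775 Vale.Agent.P231.S2N Vale.Agent.P231.ChW Vale.Agent.P231.X3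
  Vale.Agent.P231.S3S Vale.Agent.P231.S3C

variable {E : Type*} [NormedAddCommGroup E] [NormedSpace ℝ E]
  {M : Type*} [MetricSpace M] [ChartedSpace E M]
  [RiemannianBundle (fun x : M => TangentSpace 𝓘(ℝ, E) x)]
  {e : ∀ x : M, TangentSpace 𝓘(ℝ, E) x → M}
  [FiniteDimensional ℝ E] [IsManifold 𝓘(ℝ, E) ∞ M]
  [IsContMDiffRiemannianBundle 𝓘(ℝ, E) ∞ E (fun x : M => TangentSpace 𝓘(ℝ, E) x)]
  [CompactSpace M] [ConnectedSpace M] [IsRiemannianManifold 𝓘(ℝ, E) M]

variable {D : ℝ} {ι : Type} [Fintype ι] [DecidableEq ι]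
variable {F : Facts e} {hD : 0 < D} {hB : InjGE e D} {hdiam : ∀ p q : M, dist p q ≤ D}
  {k : ℕ} {X δ : ι → UT E M → E} {ε : ℝ}

/-- **the bundle `T`** -/
theorem pjT (hP : ∀ x y : M, dist x y = D → finrank ℝ (H775.Pl e D x y) = k + 1 + 1)
    (h : S2N.Fam F hD hB hdiam (k + 1) X δ ε) :
    XC.Pj (dPr e D) (Pt F hD hB hdiam X δ ε) k where
  sm := Pt_smooth hP h
  idem := Pt_idem hP h
  symm := Pt_symm h
  tr b := by
    rw [Pt_trace hP h]
    push_cast
    ring

end

end Vale.Agent.P231.BX
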