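import Vale.Agent.P231.BX.Stk

/-!
# P231, stage 3, block C5 (12): sphere integrals and linear isomorphisms
-/

set_option linter.unusedSectionVars false
set_option linter.unusedVariables false

open MeasureTheory Set Module Filter Topology Metric
open scoped ContDiff

namespace Vale.Agent.P231.BX

open Fm W H584 Vale.Agent.P231.WA Vale.Agent.P231.Co Vale.Agent.P231.S2I
open Q (dR Cut)
open Vale.Agent.P231.Fm (Sm Dif Form Lam)

variable {F : Type} [NormedAddCommGroup F] [InnerProductSpace ℝ F] [FiniteDimensional ℝ F]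
  [MeasurableSpace F] [BorelSpace F] {m : ℕ} (o : OrthonormalBasis (Fin m) ℝ F)

theorem map_iso (A : F ≃L[ℝ] F) : (dP F).Map (dP F) A := fun {E} _ _ _ {u x} h => by
  refine ⟨?_, h.2.mono fun y hy h0 => hy (A.map_eq_zero_iff.1 h0)⟩
  have h1 : Sm u x := h.1
  change Sm (fun y => A (u y)) x
  filter_upwards [h1] with y hy
  exact A.contDiff.contDiffAt.comp y hy

theorem sint_zero : sint o (0 : Form (dP F)) = 0 := by
  rw [sint, Co.pull_zero, si_zero, WF.ptv, Form.zero_val, map_zero]

/-- **sphere integrals of closed forms under linear isomorphisms** -/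
theorem abs_sint_iso (A : F ≃L[ℝ] F) {g : Form (dP F)} (hg : g.d = 0) :
    |sint o (Form.pull A (map_iso A) g)| = |sint o g| := by
  -- a cut-off function
  set chi : F → ℝ := fun y => Real.smoothTransition (2 * ‖y‖ ^ 2 - 1) with hchi
  have hcut : Cut chi (closedBall 0 1) := by
    refine ⟨Real.smoothTransition.contDiff.comp
      ((contDiff_const.mul (contDiff_norm_sq ℝ)).sub contDiff_const),
      isCompact_closedBall _ _, fun y hy => ?_, ?_⟩
    · rw [mem_closedBall_zero_iff, not_le] at hy
      exact Real.smoothTransition.one_of_one_le (by nlinarith)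
    · have h2 : ContinuousAt (fun y : F => 2 * ‖y‖ ^ 2 - 1) 0 := by fun_prop
      have h3 : (fun y : F => 2 * ‖y‖ ^ 2 - 1) 0 < 0 := by norm_num
      filter_upwards [h2.eventually (gt_mem_nhds h3)] with y hy
      exact Real.smoothTransition.zero_of_nonpos (le_of_lt hy)
  have hcutA : Cut (chi ∘ A) (A ⁻¹' closedBall 0 1) := by
    refine ⟨hcut.smooth.comp A.contDiff, ?_, fun y hy => hcut.one _ hy, ?_⟩
    · exact A.toHomeomorph.isCompact_preimage.2 hcut.compact
    · have h4 : Tendsto A (𝓝 0) (𝓝 0) := by
        have := A.continuous.tendsto 0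
        rwa [map_zero] at this
      exact h4.eventually hcut.zero
  have hd : (Form.pull A (map_iso A) g).d = 0 := by
    rw [← Form.pull_d, hg, Co.pull_zero]
  set d : ℝ := LinearMap.det ((A : F →L[ℝ] F) : F →ₗ[ℝ] F) with hdd
  have hd0 : d ≠ 0 := by
    have := (LinearEquiv.isUnit_det' A.toLinearEquiv).ne_zero
    exact this
  set G : F → ℝ := fun z => evalForm (dR chi z * g.val id z) o with hG
  have h1 : ∀ y, evalForm (dR (chi ∘ A) y * (Form.pull A (map_iso A) g).val id y) o =
      d * G (A y) := by
    intro y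
    have e1 : dR (chi ∘ A) y = Fm.pull (A : F →L[ℝ] F) (dR chi (A y)) := by
      rw [dR, dR, Fm.pull_dx]
      congr 1
      rw [fderiv_comp y ((hcut.smooth.differentiable (by simp)) (A y)) A.differentiableAt]
      congr 1
      exact A.fderiv
    by_cases hy : y = 0
    · have e2 : dR chi (A y) = 0 := by
        rw [hy, map_zero]
        exact hcut.dR_near.self_of_nhds
      rw [e1, hG]
      simp only
      rw [e2, map_zero, zero_mul, zero_mul, ← evalL_apply, map_zero, mul_zero]
    · have e3 : (Form.pull A (map_iso A) g).val id y =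
          Fm.pull (A : F →L[ℝ] F) (g.val id (A y)) := by
        have h5 : (dP F).At (id : F → F) y := S2I.at_id hy
        rw [Form.pull_val _ _ h5]
        have h6 : (dP F).At (id : F → F) (A y) :=
          S2I.at_id fun h0 => hy (A.map_eq_zero_iff.1 h0)
        have h7 := g.nat (u := id) (g := A) (x := y) h6 (Sm.of_contDiff A.contDiff _)
        rw [A.fderiv] at h7
        exact h7
      have h8 := evalForm_pull_det o.toBasis (A : F →L[ℝ] F) (dR chi (A y) * g.val id (A y))
      rw [OrthonormalBasis.coe_toBasis] at h8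
      rw [e1, e3, ← map_mul, h8]
  rw [sint_eq_cut o hd hcutA, sint_eq_cut o hg hcut]
  simp only [h1]
  rw [integral_const_mul]
  have h9 : ∫ y, G (A y) = |d|⁻¹ * ∫ z, G z := by
    have h11 : Measure.map A (volume : Measure F) = ENNReal.ofReal |d⁻¹| • volume :=
      Measure.map_linearMap_addHaar_eq_smul_addHaar (μ := (volume : Measure F))
        (f := ((A : F →L[ℝ] F) : F →ₗ[ℝ] F)) hd0
    have h12 : ∫ z, G z ∂(Measure.map A (volume : Measure F)) = ∫ y, G (A y) :=
      A.toHomeomorph.measurableEmbedding.integral_map G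
    rw [← h12, h11, integral_smul_measure, ENNReal.toReal_ofReal (abs_nonneg _), abs_inv,
      smul_eq_mul]
  rw [h9, abs_mul, abs_mul, abs_inv, abs_abs, ← mul_assoc, mul_inv_cancel₀ (abs_ne_zero.2 hd0),
    one_mul]

end Vale.Agent.P231.BX
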