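import Vale.Agent.P231.BX.FibQ

/-!
# P231, stage 3, block C5 (10): the integral of the Thom form is half the integral of `e` over the
sphere of `ℝ ⊕ T`
-/

set_option linter.unusedSectionVars false
set_option linter.unusedVariables false

open Matrix Set Filter Topology MeasureTheory
open scoped ContDiff

namespace Vale.Agent.P231.BX

open Fm W H584 XC X3
open Vale.Agent.P231.Fm (Sm Dif Form Lam)
open Vale.Agent.P231.CoC (map_cst)
open Vale.Agent.P231.S2I (sint map_rad' dPt Pt dP)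

noncomputable section

variable {B : Type*} {DB : Dif B} {ι : Type} [Fintype ι] [DecidableEq ι] {φ : B × ℝ → B}
  {P : B → Matrix ι ι ℝ} {l : ℕ}

/-- the value in a plot is determined by the value in the identity plot -/
theorem linN_val {V : Type} [NormedAddCommGroup V] [NormedSpace ℝ V] [FiniteDimensional ℝ V]
    (a : Form (Dif.lin V)) {E : Type} [NormedAddCommGroup E] [NormedSpace ℝ E]
    [FiniteDimensional ℝ E] {u : E → V} {x : E} (h : (Dif.lin V).At u x) :
    a.val u x = Fm.pull (fderiv ℝ u x) (a.val id (u x)) :=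
  a.nat (u := id) (g := u) (Sm.of_contDiff contDiff_id _) h

theorem at_linN {V : Type} [NormedAddCommGroup V] [NormedSpace ℝ V] [FiniteDimensional ℝ V]
    (x : V) :
    (Dif.lin V).At (id : V → V) x := Sm.of_contDiff contDiff_id x

/-- a fibre of `ℝ ⊕ T` -/
def emN (L : Fr P l) (z : ℝ × El l) : B × (ℝ × (ι → ℝ)) := (L.b, (z.1, embf L.f z.2))

theorem map_emN {L : Fr P l} (hL : Pl DB L) :
    (Dif.lin (ℝ × El l)).Map (dN DB P) (emN L) := fun {E} _ _ _ {u x} h => by
  refine ⟨⟨at_base hL x, ?_⟩, Eventually.of_forall fun y => mulVec_embf L.isFr _⟩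
  change Sm (fun y => (((u y).1, embf L.f (u y).2) : ℝ × (ι → ℝ))) x
  have h1 : Sm u x := h
  filter_upwards [h1] with y hy
  exact (contDiff_fst.contDiffAt.comp y hy).prodMk
    ((embf L.f).contDiff.contDiffAt.comp y (contDiff_snd.contDiffAt.comp y hy))

theorem nqN_emN (L : Fr P l) (z : ℝ × El l) : nqN (emN L z) = z.1 * z.1 + ‖z.2‖ ^ 2 := by
  change z.1 * z.1 + nq (embf L.f z.2) = _
  rw [nq_embf L.isFr]

/-- the segments in a fibre -/
def sA (l : ℕ) (p : El l × ℝ) : ℝ × El l := (1 - 2 * p.2, p.1)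

/-- the linear part of the segments -/
def AA (l : ℕ) : El l × ℝ →L[ℝ] ℝ × El l :=
  ((-2 : ℝ) • ContinuousLinearMap.snd ℝ (El l) ℝ).prod (ContinuousLinearMap.fst ℝ (El l) ℝ)

theorem sA_deriv (p : El l × ℝ) : HasFDerivAt (sA l) (AA l) p := by
  have h1 : HasFDerivAt (fun p : El l × ℝ => 1 - 2 * p.2)
      ((-2 : ℝ) • ContinuousLinearMap.snd ℝ (El l) ℝ) p := by
    have h2 := ((hasFDerivAt_snd (𝕜 := ℝ) (E := El l) (F := ℝ) (p := p)).const_mul 2).const_sub 1
    refine h2.congr_fderiv ?_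
    exact (neg_smul (2 : ℝ) _).symm
  exact h1.prodMk hasFDerivAt_fst

theorem contDiff_sA : ContDiff ℝ ∞ (sA l) :=
  (contDiff_const.sub (contDiff_const.mul contDiff_snd)).prodMk contDiff_fst

theorem map_sA : ((Dif.lin (El l)).prod (Dif.lin ℝ)).Map (Dif.lin (ℝ × El l)) (sA l) :=
  fun {E} _ _ _ {u x} h => by
  have h1 : Sm (fun y => (u y).1) x := h.1
  have h2 : Sm (fun y => (u y).2) x := h.2
  change Sm (fun y => ((1 - 2 * (u y).2, (u y).1) : ℝ × El l)) x
  filter_upwards [h1, h2] with y k1 k2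
  exact (contDiffAt_const.sub (contDiffAt_const.mul k2)).prodMk k1

/-- the linear coordinates -/
def HT (l : ℕ) : El (l + 1) →L[ℝ] ℝ × El l := (hdL l).prod (tlL l)

theorem map_HT : (Dif.lin (El (l + 1))).Map (Dif.lin (ℝ × El l)) (HT l) :=
  Dif.map_lin (HT l).contDiff

namespace Jn

variable {hφ : (DB.prod (Dif.lin ℝ)).Map DB φ} {dr : B × (ℝ × (ι → ℝ)) → B} {e : Form DB}
  (J : Jn DB P φ hφ dr e) {L : Fr P l} (hL : Pl DB L)

/-- the cut-off form on a fibre -/
def GaL : Form (Dif.lin (ℝ × El l)) := Form.pull (emN L) (map_emN hL) J.Ga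

theorem GaL_d_val {z : ℝ × El l} (hz : 1 / 4 < z.1 * z.1 + ‖z.2‖ ^ 2) :
    (J.GaL hL).d.val id z = 0 := by
  rw [GaL, ← Form.pull_d, Form.pull_val _ _ (at_linN z)]
  refine J.Ga_d_val (map_emN hL (at_linN z)) ?_
  change 1 / 4 < nqN (emN L z)
  rwa [nqN_emN]

/-- the Thom form on a fibre -/
theorem TL_eq : J.TL hL = -((1 / 2 : ℝ) • Form.K (Form.pull (sA l) map_sA (J.GaL hL).d)) := by
  rw [TL, tau, Co.pull_neg, Co.pull_smul, WR.pull_K (map_emb hL), GaL, ← Form.pull_d]
  congr 3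
  exact (H584.pull_pull (WR.map_prodId (map_emb hL)) map_s1
    ((map_s1 (DB := DB) (P := P)).comp (WR.map_prodId (map_emb hL))) (fun _ => rfl) _).trans
    (H584.pull_pull map_sA (map_emN hL)
      ((map_s1 (DB := DB) (P := P)).comp (WR.map_prodId (map_emb hL))) (fun _ => rfl) _).symm

/-- the integrand on a fibre of `ℝ ⊕ T` -/
def gN (z : ℝ × El l) : ℝ := evalForm (iprod ((1, 0) : ℝ × El l) ((J.GaL hL).d.val id z))
  (fun i : Fin l => ((0, EuclideanSpace.basisFun (Fin l) ℝ i) : ℝ × El l))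

theorem gN_zero {z : ℝ × El l} (hz : 1 / 4 < z.1 * z.1 + ‖z.2‖ ^ 2) : J.gN hL z = 0 := by
  rw [gN, J.GaL_d_val hL hz, map_zero, ← evalL_apply, map_zero]

theorem continuous_gN : Continuous (J.gN hL) := by
  have hc : Continuous fun z => (J.GaL hL).d.val id z :=
    continuous_iff_continuousAt.2 fun z => ((J.GaL hL).d.smooth (at_linN z)).continuousAt
  exact (evalL _).continuous.comp ((iprodL _).continuous.comp hc)

theorem integrable_gN : Integrable (J.gN hL) := by
  refine (J.continuous_gN hL).integrable_of_hasCompactSupport ?_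
  refine HasCompactSupport.intro ((isCompact_Icc (a := (-1 : ℝ)) (b := 1)).prod
    (isCompact_closedBall (0 : El l) 1)) fun z hz => ?_
  refine J.gN_zero hL ?_
  by_contra hcon
  rw [not_lt] at hcon
  refine hz ⟨⟨?_, ?_⟩, ?_⟩
  · nlinarith [sq_nonneg ‖z.2‖, mul_self_nonneg (z.1 + 1)]
  · nlinarith [sq_nonneg ‖z.2‖, mul_self_nonneg (z.1 - 1)]
  · rw [mem_closedBall_zero_iff]
    nlinarith [mul_self_nonneg z.1, norm_nonneg z.2]

theorem at1_TL (x : El l) (t : ℝ) :
    evalForm (at1 ((Form.pull (sA l) map_sA (J.GaL hL).d).val (Form.cyl id) (x, t)))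
      (EuclideanSpace.basisFun (Fin l) ℝ) = -2 * J.gN hL (1 - 2 * t, x) := by
  have h1 : ((Dif.lin (El l)).prod (Dif.lin ℝ)).At (Form.cyl (id : El l → El l)) (x, t) :=
    Form.cyl_at (at_lin x) t
  have h2 : (Form.pull (sA l) map_sA (J.GaL hL).d).val (Form.cyl id) (x, t) =
      Fm.pull (AA l) ((J.GaL hL).d.val id (1 - 2 * t, x)) := by
    rw [Form.pull_val _ _ h1, linN_val _ (map_sA h1)]
    have h3 : fderiv ℝ (sA l ∘ Form.cyl (id : El l → El l)) (x, t) = AA l :=
      (sA_deriv (l := l) (x, t)).fderiv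
    rw [h3]
    rfl
  have h4 : (AA l) ((0, 1) : El l × ℝ) = (-2 : ℝ) • ((1, 0) : ℝ × El l) := by
    refine Prod.ext ?_ ?_
    · change (-2 : ℝ) • (1 : ℝ) = (-2 : ℝ) • (1 : ℝ)
      rfl
    · change (0 : El l) = (-2 : ℝ) • (0 : El l)
      rw [smul_zero]
  rw [h2, at1_apply, at0_apply, pull_iprod, evalForm_pull, evalForm_pull, h4, iprod_smul,
    ← evalL_apply, map_smul, evalL_apply, smul_eq_mul, gN]
  congr 2
  funext i
  refine Prod.ext ?_ rfl
  change (-2 : ℝ) • (0 : ℝ) = 0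
  rw [smul_zero]

theorem gT_eq (x : El l) : J.gT hL x = ∫ t in (0 : ℝ)..1, J.gN hL (1 - 2 * t, x) := by
  have h1 : Continuous fun t : ℝ =>
      (Form.pull (sA l) map_sA (J.GaL hL).d).val (Form.cyl id) (x, t) := by
    refine continuous_iff_continuousAt.2 fun t => ?_
    have h2 := ((Form.pull (sA l) map_sA (J.GaL hL).d).smooth
      (Form.cyl_at (D := Dif.lin (El l)) (at_lin x) t)).continuousAt
    exact ContinuousAt.comp (f := fun t : ℝ => ((x, t) : El l × ℝ)) h2 (by fun_prop)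
  have h3 : evalForm ((Form.K (Form.pull (sA l) map_sA (J.GaL hL).d)).val id x)
      (EuclideanSpace.basisFun (Fin l) ℝ) = ∫ t in (0 : ℝ)..1, -2 * J.gN hL (1 - 2 * t, x) := by
    rw [Form.K_val _ (at_lin x), kop, ← evalL_apply,
      ← ContinuousLinearMap.intervalIntegral_comp_comm]
    · exact intervalIntegral.integral_congr fun t _ => J.at1_TL hL x t
    · exact ((at1 (E := El l)).continuous.comp h1).intervalIntegrable _ _
  rw [gT, J.TL_eq hL, Form.neg_val, Form.smul_val, ← evalL_apply, map_neg, map_smul, evalL_apply,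
    h3, intervalIntegral.integral_const_mul, smul_eq_mul]
  ring

theorem gT_half (x : El l) : J.gT hL x = (1 / 2) * ∫ s, J.gN hL (s, x) := by
  have h1 := intervalIntegral.integral_comp_sub_mul (a := 0) (b := 1)
    (fun s => J.gN hL (s, x)) (c := 2) two_ne_zero 1
  rw [J.gT_eq hL, h1, smul_eq_mul]
  have h2 : ∫ s in (1 - 2 * 1 : ℝ)..(1 - 2 * 0), J.gN hL (s, x) = ∫ s, J.gN hL (s, x) := by
    rw [intervalIntegral.integral_of_le (by norm_num)]
    refine setIntegral_eq_integral_of_forall_compl_eq_zero fun s hs => ?_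
    refine J.gN_zero hL ?_
    change 1 / 4 < s * s + ‖x‖ ^ 2
    have h3 := sq_nonneg ‖x‖
    by_contra hcon
    rw [not_lt] at hcon
    refine hs ⟨?_, ?_⟩
    · nlinarith [mul_self_nonneg (s + 1)]
    · nlinarith [mul_self_nonneg (s - 1)]
  rw [h2]
  norm_num

/-- the integral of the Thom form as an integral over `ℝ ⊕ T` -/
theorem qT_eq : J.qT hL = (1 / 2) * ∫ y : El (l + 1), J.gN hL (hdL l y, tlL l y) := by
  rw [qT, integral_HT l (J.integrable_gN hL), ← integral_const_mul]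
  exact integral_congr_ae (Eventually.of_forall fun x => J.gT_half hL x)

/-- the form on the fibre -/
def b7 : Form (Dif.lin (El (l + 1))) := Form.pull (HT l) map_HT (J.GaL hL)

theorem b7_d_val (y : El (l + 1)) : (J.b7 hL).d.val id y =
    Fm.pull (HT l) ((J.GaL hL).d.val id (HT l y)) := by
  rw [b7, ← Form.pull_d, Form.pull_val _ _ (at_lin y), linN_val _ (map_HT (at_lin y))]
  have h1 : fderiv ℝ (HT l ∘ (id : El (l + 1) → El (l + 1))) y = HT l := (HT l).fderiv
  rw [h1]
  rfl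

theorem b7_zero (y : El (l + 1)) (hy : 9 / 10 < ‖y‖) : (J.b7 hL).d.val id y = 0 := by
  rw [J.b7_d_val, J.GaL_d_val hL, map_zero]
  have h1 := norm_sq_HT l y
  change 1 / 4 < hdL l y * hdL l y + ‖tlL l y‖ ^ 2
  nlinarith

theorem HT_zero : HT l (EuclideanSpace.basisFun (Fin (l + 1)) ℝ 0) = (1, 0) := by
  refine Prod.ext ?_ ?_
  · change (EuclideanSpace.basisFun (Fin (l + 1)) ℝ 0) 0 = 1
    simp
  · ext j
    change (EuclideanSpace.basisFun (Fin (l + 1)) ℝ 0) j.succ = 0
    simp [Fin.succ_ne_zero]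

theorem HT_succ (i : Fin l) : HT l (EuclideanSpace.basisFun (Fin (l + 1)) ℝ i.succ) =
    (0, EuclideanSpace.basisFun (Fin l) ℝ i) := by
  refine Prod.ext ?_ ?_
  · change (EuclideanSpace.basisFun (Fin (l + 1)) ℝ i.succ) 0 = 0
    simp [(Fin.succ_ne_zero i).symm]
  · ext j
    change (EuclideanSpace.basisFun (Fin (l + 1)) ℝ i.succ) j.succ =
      (EuclideanSpace.basisFun (Fin l) ℝ i) j
    simp [Fin.succ_inj, Pi.single_apply]

theorem evalForm_b7 (y : El (l + 1)) :
    evalForm ((J.b7 hL).d.val id y) (EuclideanSpace.basisFun (Fin (l + 1)) ℝ) =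
      J.gN hL (hdL l y, tlL l y) := by
  rw [J.b7_d_val, evalForm_pull, gN, evalForm_apply, cont_succ, HT_zero]
  simp only [HT_succ]
  rfl

/-- the ray map on the sphere of `ℝ ⊕ T` -/
def drL (dr : B × (ℝ × (ι → ℝ)) → B) (L : Fr P l) (y : El (l + 1)) : B :=
  dr (emN L (HT l (rad y)))

include J in
theorem at_nz (hL : Pl DB L) {E : Type} [NormedAddCommGroup E] [NormedSpace ℝ E]
    [FiniteDimensional ℝ E] {u : E → El (l + 1)} {x : E} (hu : (dP (El (l + 1))).At u x) :
    ((dN DB P).on (NZ B ι)).At (fun y => emN L (HT l (rad (u y)))) x := by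
  refine ⟨map_emN hL (map_HT (map_radL hu)), ?_⟩
  filter_upwards [hu.2] with y hy h0
  have h1 := nqN_emN L (HT l (rad (u y)))
  rw [nqN_zero h0] at h1
  have h2 := norm_sq_HT l (rad (u y))
  rw [norm_rad hy] at h2
  change 0 = hdL l (rad (u y)) * hdL l (rad (u y)) + ‖tlL l (rad (u y))‖ ^ 2 at h1
  nlinarith

include J in
theorem map_drL (hL : Pl DB L) : (dP (El (l + 1))).Map DB (drL dr L) :=
  fun {E} _ _ _ {u x} hu => J.map (J.at_nz hL hu)

theorem pull_rad_b7 : Form.pull rad map_radL (J.b7 hL) =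
    Form.pull (drL dr L) (J.map_drL hL) e := by
  refine Form.ext_val fun E _ _ _ u x hu => ?_
  have h1 : (Dif.lin (El (l + 1))).At (rad ∘ u) x := map_radL hu
  rw [Form.pull_val _ _ hu, b7, Form.pull_val _ _ h1, GaL, Form.pull_val _ _ (map_HT h1),
    J.Ga_val (map_emN hL (map_HT h1)), Form.pull_val _ _ hu]
  · rfl
  · change 1 / 4 ≤ nqN (emN L (HT l (rad (u x))))
    rw [nqN_emN]
    have h2 := norm_sq_HT l (rad (u x))
    rw [norm_rad hu.2.self_of_nhds] at h2
    change 1 / 4 ≤ hdL l (rad (u x)) * hdL l (rad (u x)) + ‖tlL l (rad (u x))‖ ^ 2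
    nlinarith

/-- **the integral of the Thom form** -/
theorem qT_sint : J.qT hL = (1 / 2) * sint (EuclideanSpace.basisFun (Fin (l + 1)) ℝ)
    (Form.pull (drL dr L) (J.map_drL hL) e) := by
  rw [J.qT_eq hL, ← J.pull_rad_b7 hL, sint_eq_int _ (J.b7 hL) (R := 9 / 10) (by norm_num) (by norm_num)
    (J.b7_zero hL)]
  simp only [J.evalForm_b7 hL]

end Jn

end

end Vale.Agent.P231.BX
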