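import Vale.Agent.P231.BX.InsC
import Vale.Agent.P231.BX.Lin
import Vale.Agent.P231.BX.Qval
import Vale.Agent.P231.S2II.ValF

/-!
# P231, stage 3, block C5 (16): the fibres of the ray map and the frames of `L`
-/

set_option maxSynthPendingDepth 3
set_option linter.unusedSectionVars false
set_option linter.unusedVariables false

open Bundle Manifold Set Filter Module Matrix
open scoped ContDiff Manifold Topology

namespace Vale.Agent.P231.BX

noncomputable section

open Vale.Agent.P234 Vale.Agent.P231 Vale.Agent.P231.Fm Vale.Agent.P231.W Vale.Agent.P231.WR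
  Vale.Agent.P231.H775 Vale.Agent.P231.S2N Vale.Agent.P231.ChW Vale.Agent.P231.X3
  Vale.Agent.P231.S3S Vale.Agent.P231.S3C

variable {E : Type*} [NormedAddCommGroup E] [NormedSpace ℝ E]
  {M : Type*} [MetricSpace M] [ChartedSpace E M]
  [RiemannianBundle (fun x : M => TangentSpace 𝓘(ℝ, E) x)]
  {e : ∀ x : M, TangentSpace 𝓘(ℝ, E) x → M}
  [FiniteDimensional ℝ E] [IsManifold 𝓘(ℝ, E) ∞ M]
  [IsContMDiffRiemannianBundle 𝓘(ℝ, E) ∞ E (fun x : M => TangentSpace 𝓘(ℝ, E) x)]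
  [CompactSpace M] [ConnectedSpace M] [IsRiemannianManifold 𝓘(ℝ, E) M]

variable {D : ℝ} {ι : Type} [Fintype ι] [DecidableEq ι]
variable (F : Facts e) (hD : 0 < D) (hB : InjGE e D) (hdiam : ∀ p q : M, dist p q ≤ D)
  {k : ℕ} {X δ : ι → UT E M → E} {ε : ℝ}

/-- the sum as a linear map -/
def rsL (L : XC.Fr (Pt F hD hB hdiam X δ ε) k) : El (k + 1) →ₗ[ℝ] EuclideanSpace ℝ ι where
  toFun y := (HT k y).1 • ah F hD hB hdiam X δ ε L.b + WithLp.toLp 2 (embf L.f (HT k y).2)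
  map_add' y z := by
    rw [map_add, Prod.fst_add, Prod.snd_add, map_add, WithLp.toLp_add, add_smul]
    abel
  map_smul' c y := by
    rw [map_smul, Prod.smul_fst, Prod.smul_snd, map_smul, WithLp.toLp_smul, smul_eq_mul, mul_smul,
      RingHom.id_apply, smul_add]

theorem rsL_apply (L : XC.Fr (Pt F hD hB hdiam X δ ε) k) (y : El (k + 1)) :
    rsL F hD hB hdiam L y = rs F hD hB hdiam X δ ε (emN L (HT k y)) := rfl

/-- the coordinates of the boundary values in a frame of `L` -/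
def LvL (L : XC.Fr (Pt F hD hB hdiam X δ ε) k) (f : S2II.Fr e D (k + 1)) :
    El (k + 1) →ₗ[ℝ] El (k + 1) where
  toFun y := WithLp.toLp 2 fun i => ip (foot f.v) (vec' (f.W i))
    (ThL F hD hB hdiam X f.v (rsL F hD hB hdiam L y)).1
  map_add' y z := by
    ext i
    rw [map_add, map_add]
    exact ip_add_right' _ _ _ _
  map_smul' c y := by
    ext i
    rw [map_smul, map_smul]
    exact ip_smul_right' _ _ _ _

theorem cb_LvL (hP : ∀ x y : M, dist x y = D → finrank ℝ (H775.Pl e D x y) = k + 1 + 1)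
    (L : XC.Fr (Pt F hD hB hdiam X δ ε) k) (f : S2II.Fr e D (k + 1)) (y : El (k + 1)) :
    S2II.cb f (LvL F hD hB hdiam L f y) =
      Th0 F hD hB hdiam (XX X (rsL F hD hB hdiam L y)) f.v := by
  have h1 := f.isLF.prL_eq F hD hB hdiam hP
    (Th0 F hD hB hdiam (XX X (rsL F hD hB hdiam L y)) f.v)
  rw [prL_of_mem (Th0_mem F hD hB hdiam _ f.v)] at h1
  exact h1.symm

theorem nm_cb' (f : S2II.Fr e D (k + 1)) (z : El (k + 1)) :
    nm (foot f.v) (S2II.cb f z) = ‖z‖ := by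
  have h1 := S2II.ip_cb_cb f z z
  have h2 : ip (foot f.v) (S2II.cb f z) (S2II.cb f z) = nm (foot f.v) (S2II.cb f z) ^ 2 :=
    real_inner_self_eq_norm_sq (F := TangentSpace 𝓘(ℝ, E) (foot f.v)) _
  rw [h2, real_inner_self_eq_norm_sq] at h1
  exact (pow_left_inj₀ (norm_nonneg (E := TangentSpace 𝓘(ℝ, E) (foot f.v)) _)
    (norm_nonneg _) two_ne_zero).1 h1

section Inj

variable {F hD hB hdiam}
  (hP : ∀ x y : M, dist x y = D → finrank ℝ (H775.Pl e D x y) = k + 1 + 1)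
  (h : S2N.Fam F hD hB hdiam (k + 1) X δ ε)
  (L : XC.Fr (Pt F hD hB hdiam X δ ε) k)

theorem fix_emN (z : ℝ × El k) : Pt F hD hB hdiam X δ ε (emN L z).1 *ᵥ (emN L z).2.2 =
    (emN L z).2.2 := mulVec_embf L.isFr _

include hP in
theorem xiN_rsL (y : El (k + 1)) : (xiN h (emN L (HT k y))).a = rsL F hD hB hdiam L y :=
  (rs_of hP h (fix_emN L (HT k y))).1

include hP in
theorem xiN_rsL_ne {y : El (k + 1)} (hy : y ≠ 0) : (xiN h (emN L (HT k y))).a ≠ 0 := by
  refine xiN_ne hP h (fix_emN L (HT k y)) fun h0 => hy ?_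
  have h1 := nqN_emN L (HT k y)
  have h2 : nqN (emN L (HT k y)) = 0 := nqN_zero h0
  rw [h2] at h1
  have h3 := norm_sq_HT k y
  change 0 = hdL k y * hdL k y + ‖tlL k y‖ ^ 2 at h1
  have h4 : ‖y‖ ^ 2 = 0 := by rw [h3]; linarith
  exact norm_eq_zero.1 (pow_eq_zero_iff two_ne_zero |>.1 h4)

include hP h in
theorem LvL_inj {f : S2II.Fr e D (k + 1)} (hf : f.v = L.b.v) :
    Function.Injective (LvL F hD hB hdiam L f) := by
  refine (injective_iff_map_eq_zero _).2 fun y hy => ?_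
  by_contra hne
  have h1 := cb_LvL F hD hB hdiam hP L f y
  rw [hy] at h1
  have h2 : S2II.cb f (0 : El (k + 1)) = 0 := by
    have := S2II.cb_smul f 0 (0 : El (k + 1))
    rwa [zero_smul, zero_smul] at this
  rw [h2, hf] at h1
  have h3 := Th0_ne hP h (xiN h (emN L (HT k y))) (xiN_rsL_ne hP h L hne)
  rw [xiN_rsL hP h L] at h3
  exact h3 h1.symm

/-- the coordinates as an isomorphism -/
def LvE {f : S2II.Fr e D (k + 1)} (hf : f.v = L.b.v) : El (k + 1) ≃L[ℝ] El (k + 1) :=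
  (LinearEquiv.ofInjectiveEndo (LvL F hD hB hdiam L f) (LvL_inj hP h L hf)).toContinuousLinearEquiv

theorem LvE_apply {f : S2II.Fr e D (k + 1)} (hf : f.v = L.b.v) (y : El (k + 1)) :
    LvE hP h L hf y = LvL F hD hB hdiam L f y := rfl

/-- **the ray map on a fibre is the family of the pairs of a frame** -/
theorem drL_eq {f : S2II.Fr e D (k + 1)} (hf : f.v = L.b.v) {y : El (k + 1)} (hy : y ≠ 0) :
    Jn.drL (drP hP h) L y = S2II.fam F hD hB hdiam f (LvE hP h L hf y) := by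
  have hy' : rad y ≠ 0 := fun h0 => by
    have := norm_rad hy
    rw [h0, norm_zero] at this
    exact zero_ne_one this
  have h1 := xiN_rsL_ne hP h L hy'
  have h2 : LvE hP h L hf y ≠ 0 := fun h0 => hy ((LvE hP h L hf).map_eq_zero_iff.1 h0)
  have h3 : ‖(‖LvE hP h L hf y‖⁻¹ : ℝ) • LvE hP h L hf y‖ = 1 := S2II.norm_nrm h2
  rw [Jn.drL, drP_of hP h h1, S2II.fam]
  refine Pr.ext' ?_ ?_
  · rw [dir_v, S2II.cone_v, hf]
    rfl
  · rw [S2II.cone_w F hD hB hdiam f h3]
    refine (mk_congr (by rw [hf]; rfl) ?_)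
    have h4 : rad y = (‖y‖⁻¹ : ℝ) • y := rfl
    have h5 : 0 < (‖y‖⁻¹ : ℝ) := inv_pos.2 (norm_pos_iff.2 hy)
    have h6 := cb_LvL F hD hB hdiam hP L f (rad y)
    rw [hf] at h6
    change S2N.nrm (foot L.b.v) (Th0 F hD hB hdiam (XX X (xiN h (emN L (HT k (rad y)))).a)
      L.b.v) = _
    rw [xiN_rsL hP h L, ← h6, h4, map_smul, S2II.cb_smul, nrm_smul h5, S2II.cb_smul]
    have h7 : nm (foot L.b.v) (S2II.cb f (LvL F hD hB hdiam L f y)) =
        ‖LvL F hD hB hdiam L f y‖ := by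
      rw [← hf]
      exact nm_cb' f _
    rw [S2N.nrm, h7]
    rfl

end Inj

end

end Vale.Agent.P231.BX
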