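import Vale.Agent.P231.BX.InsD

/-!
# P231, stage 3, block C5 (17): the value of the fibre integral
-/

set_option maxSynthPendingDepth 3
set_option linter.unusedSectionVars false
set_option linter.unusedVariables false

open Bundle Manifold Set Filter Module Matrix MeasureTheory
open scoped ContDiff Manifold Topology

namespace Vale.Agent.P231.BX

noncomputable section

open Vale.Agent.P234 Vale.Agent.P231 Vale.Agent.P231.Fm Vale.Agent.P231.W Vale.Agent.P231.WR
  Vale.Agent.P231.H775 Vale.Agent.P231.S2N Vale.Agent.P231.ChW Vale.Agent.P231.X3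
  Vale.Agent.P231.S3S Vale.Agent.P231.S3C
open Vale.Agent.P231.S2I (sint dP sint_eq_cut)

variable {E : Type*} [NormedAddCommGroup E] [NormedSpace ℝ E]
  {M : Type*} [MetricSpace M] [ChartedSpace E M]
  [RiemannianBundle (fun x : M => TangentSpace 𝓘(ℝ, E) x)]
  {e : ∀ x : M, TangentSpace 𝓘(ℝ, E) x → M}
  [FiniteDimensional ℝ E] [IsManifold 𝓘(ℝ, E) ∞ M]
  [IsContMDiffRiemannianBundle 𝓘(ℝ, E) ∞ E (fun x : M => TangentSpace 𝓘(ℝ, E) x)]
  [CompactSpace M] [ConnectedSpace M] [IsRiemannianManifold 𝓘(ℝ, E) M]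

variable {D : ℝ} {ι : Type} [Fintype ι] [DecidableEq ι]
variable (F : Facts e) (hD : 0 < D) (hB : InjGE e D) (hdiam : ∀ p q : M, dist p q ≤ D)
  {k : ℕ} {X δ : ι → UT E M → E} {ε : ℝ}

theorem map_fam (f : S2II.Fr e D (k + 1)) :
    (dP (El (k + 1))).Map (dPr e D) (S2II.fam F hD hB hdiam f) := fun {E'} _ _ _ {u x} hu => by
  have h1 := S2II.fam_at F hD hB hdiam f (y := u x) hu.2.self_of_nhds
  exact (dPr e D).comp h1 hu.1

theorem fam_point {b : Form (dPr e D)} (f : S2II.Fr e D (k + 1)) (y : El (k + 1)) :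
    Fm.dx (fderiv ℝ (S2II.rct (k + 1)) y) * b.val (S2II.fam F hD hB hdiam f) y =
      Vale.Agent.P231.Q.dR (S2II.rct (k + 1)) y *
        (Form.pull (S2II.fam F hD hB hdiam f) (map_fam F hD hB hdiam f) b).val id y := by
  by_cases hy : y = 0
  · have h1 : Vale.Agent.P231.Q.dR (S2II.rct (k + 1)) y = 0 := by
      rw [hy]
      exact (S2II.cut_rct (k + 1)).dR_near.self_of_nhds
    have h2 : Fm.dx (fderiv ℝ (S2II.rct (k + 1)) y) = 0 := h1
    rw [h1, h2, zero_mul, zero_mul]
  · have h1 : (dP (El (k + 1))).At (id : El (k + 1) → El (k + 1)) y := S2I.at_id hy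
    rw [Form.pull_val _ _ h1]
    rfl

/-- the fibre integral as a sphere integral -/
theorem kf_sint {b : Form (dPr e D)} (hb : b.d = 0) (f : S2II.Fr e D (k + 1)) :
    S2II.kf F hD hB hdiam b f = sint (EuclideanSpace.basisFun (Fin (k + 1)) ℝ)
      (Form.pull (S2II.fam F hD hB hdiam f) (map_fam F hD hB hdiam f) b) := by
  have hd : (Form.pull (S2II.fam F hD hB hdiam f) (map_fam F hD hB hdiam f) b).d = 0 := by
    rw [← Form.pull_d, hb, Co.pull_zero]
  rw [S2II.kf_eq, sint_eq_cut _ hd (S2II.cut_rct (k + 1))]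
  refine integral_congr_ae (Eventually.of_forall fun y => ?_)
  exact congrArg (fun a => evalForm a (EuclideanSpace.basisFun (Fin (k + 1)) ℝ))
    (fam_point F hD hB hdiam f y)

variable {F hD hB hdiam}

theorem abs_qT {hP : ∀ x y : M, dist x y = D → finrank ℝ (H775.Pl e D x y) = k + 1 + 1}
    {h : S2N.Fam F hD hB hdiam (k + 1) X δ ε} {b : Form (dPr e D)}
    (J : Jn (dPr e D) (Pt F hD hB hdiam X δ ε) (Lam hP h) (isFlow_Lam hP h).map (drP hP h) b)
    {L : XC.Fr (Pt F hD hB hdiam X δ ε) k} (hL : Pl (dPr e D) L)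
    {f : S2II.Fr e D (k + 1)} (hf : f.v = L.b.v) :
    |J.qT hL| = (1 / 2) * |S2II.kf F hD hB hdiam b f| := by
  have hd : (Form.pull (S2II.fam F hD hB hdiam f) (map_fam F hD hB hdiam f) b).d = 0 := by
    rw [← Form.pull_d, J.closed, Co.pull_zero]
  have h1 : Form.pull (Jn.drL (drP hP h) L) (J.map_drL hL) b =
      Form.pull (LvE hP h L hf) (map_iso (LvE hP h L hf))
        (Form.pull (S2II.fam F hD hB hdiam f) (map_fam F hD hB hdiam f) b) := by
    refine Form.ext_val fun E' _ _ _ u x hu => ?_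
    rw [Form.pull_val _ _ hu, Form.pull_val _ _ hu,
      Form.pull_val _ _ (map_iso (LvE hP h L hf) hu)]
    refine b.congr (J.map_drL hL hu) ?_
    filter_upwards [hu.2] with y hy
    exact drL_eq hP h L hf hy
  rw [J.qT_sint hL, h1, abs_mul, abs_sint_iso _ _ hd, ← kf_sint F hD hB hdiam J.closed,
    abs_of_pos (by norm_num : (0 : ℝ) < 1 / 2)]

theorem sint_lin {m : ℕ} {w z : Form (dP (El m))} (a : ℝ) (hw : w.d = 0) :
    sint (EuclideanSpace.basisFun (Fin m) ℝ) (a • w + z.d) =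
      a * sint (EuclideanSpace.basisFun (Fin m) ℝ) w := by
  have hr := S2II.cut_rct m
  have hd : (a • w + z.d).d = 0 := by
    rw [Form.d_add, Form.d_smul, hw, smul_zero, Form.d_d, add_zero]
  rw [sint_eq_cut _ hd hr, sint_eq_cut _ hw hr, ← integral_const_mul]
  have h1 := S2I.integral_dR_d (EuclideanSpace.basisFun (Fin m) ℝ) z hr
  have h2 := S2I.integrable_dR (EuclideanSpace.basisFun (Fin m) ℝ) w hr
  have h3 := S2I.integrable_dR (EuclideanSpace.basisFun (Fin m) ℝ) z.d hr
  rw [← add_zero (∫ y, a * _), ← h1, ← integral_add (h2.const_mul a) h3]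
  refine integral_congr_ae (Eventually.of_forall fun y => ?_)
  change evalForm _ _ = a * evalForm _ _ + evalForm _ _
  rw [Form.add_val, Form.smul_val, mul_add, mul_smul_comm, Q.evalForm_add, Q.evalForm_smul]

/-- exact forms do not contribute -/
theorem kf_add_d {b c : Form (dPr e D)} (a : ℝ) (f : S2II.Fr e D (k + 1))
    {η : Form (dPr e D)} (hb : b.d = 0) (hc : c.d = 0) (hbc : c = a • b + η.d) :
    S2II.kf F hD hB hdiam c f = a * S2II.kf F hD hB hdiam b f := by
  have hd : (Form.pull (S2II.fam F hD hB hdiam f) (map_fam F hD hB hdiam f) b).d = 0 := by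
    rw [← Form.pull_d, hb, Co.pull_zero]
  have h1 : Form.pull (S2II.fam F hD hB hdiam f) (map_fam F hD hB hdiam f) c =
      a • Form.pull (S2II.fam F hD hB hdiam f) (map_fam F hD hB hdiam f) b +
        (Form.pull (S2II.fam F hD hB hdiam f) (map_fam F hD hB hdiam f) η).d := by
    rw [hbc, ← Form.pull_d]
    refine (map_add (Form.pullA _ (map_fam F hD hB hdiam f)) _ _).trans ?_
    exact congrArg₂ (· + ·) (map_smul (Form.pullA _ (map_fam F hD hB hdiam f)) a b) rfl
  rw [kf_sint F hD hB hdiam hc, kf_sint F hD hB hdiam hb, h1, sint_lin a hd]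

end

end Vale.Agent.P231.BX
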