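import Vale.Agent.P231.BX.InsE
import Vale.Agent.P231.BX.Eul

/-!
# P231, stage 3, block C5 (18): `b² = ± κ² c_k(T) + d(basic)` on the space of pairs
-/

set_option maxSynthPendingDepth 3
set_option linter.unusedSectionVars false
set_option linter.unusedVariables false

open Bundle Manifold Set Filter Module Matrix MeasureTheory
open scoped ContDiff Manifold Topology

namespace Vale.Agent.P231.BX

noncomputable section

open Vale.Agent.P234 Vale.Agent.P231 Vale.Agent.P231.Fm Vale.Agent.P231.W Vale.Agent.P231.WR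
  Vale.Agent.P231.H775 Vale.Agent.P231.S2N Vale.Agent.P231.ChW Vale.Agent.P231.X3
  Vale.Agent.P231.S3S Vale.Agent.P231.S3C

variable {E : Type*} [NormedAddCommGroup E] [NormedSpace ℝ E]
  {M : Type*} [MetricSpace M] [ChartedSpace E M]
  [RiemannianBundle (fun x : M => TangentSpace 𝓘(ℝ, E) x)]
  {e : ∀ x : M, TangentSpace 𝓘(ℝ, E) x → M}
  [FiniteDimensional ℝ E] [IsManifold 𝓘(ℝ, E) ∞ M]
  [IsContMDiffRiemannianBundle 𝓘(ℝ, E) ∞ E (fun x : M => TangentSpace 𝓘(ℝ, E) x)]
  [CompactSpace M] [ConnectedSpace M] [IsRiemannianManifold 𝓘(ℝ, E) M]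

variable {D : ℝ} {ι : Type} [Fintype ι] [DecidableEq ι]
variable {F : Facts e} {hD : 0 < D} {hB : InjGE e D} {hdiam : ∀ p q : M, dist p q ≤ D}
  {k : ℕ} {X δ : ι → UT E M → E} {ε : ℝ}
  (hP : ∀ x y : M, dist x y = D → finrank ℝ (H775.Pl e D x y) = k + 1 + 1)
  (h : S2N.Fam F hD hB hdiam (k + 1) X δ ε)

/-- basic forms do not change under the time maps of the flow -/
theorem pull_Lam_D {b : Form (dPr e D)} (hb : Basic (Lam hP h) (isFlow_Lam hP h).map b)
    (hm : (dPr e D).Map (dPr e D) (fun q => Lam hP h (q, D))) :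
    Form.pull (fun q => Lam hP h (q, D)) hm b = b := by
  have h1 := congrArg (at_ D) hb
  rw [H584.at_pr, H584.at_pull_of] at h1
  exact h1

/-- **the ray structure on the space of pairs** -/
theorem jn {b : Form (dPr e D)} (hd : b.d = 0) (hs : b.sg = b)
    (hb : Basic (Lam hP h) (isFlow_Lam hP h).map b)
    (hT : Form.pull (Th F hD hB hdiam) (map_Th F hD hB hdiam) b = -b) :
    Jn (dPr e D) (Pt F hD hB hdiam X δ ε) (Lam hP h) (isFlow_Lam hP h).map (drP hP h) b where
  map := map_drP hP h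
  eqv := drP_Lam hP h
  inv := Pt_Lam hP h
  pos := drP_pos hP h
  closed := hd
  even := hs
  bas := hb
  ant hA := by
    have h1 : ∀ q, drP hP h (q, (-1, 0)) = Lam hP h (Th F hD hB hdiam q, D) := fun q => by
      rw [drP_neg, Lam_half, WR.Th_Th]
    have hm : (dPr e D).Map (dPr e D) (fun q => Lam hP h (q, D)) :=
      H584.map_at (isFlow_Lam hP h).map D
    have h2 := H584.pull_pull (map_Th F hD hB hdiam) hm hA (fun q => (h1 q).symm) b
    rw [← h2, pull_Lam_D hP h hb hm, hT]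

/-- **the square of `b`** -/
theorem sq_pair [NeZero k] {m : ℕ} (hm : m + 1 = k) {b : Form (dPr e D)}
    (hdeg : Form.IsDeg (m + 1) b) (hd : b.d = 0) (hs : b.sg = b)
    (hb : Basic (Lam hP h) (isFlow_Lam hP h).map b)
    (hT : Form.pull (Th F hD hB hdiam) (map_Th F hD hB hdiam) b = -b) {κ : ℝ}
    (hv : ∀ f : S2II.Fr e D (k + 1), |S2II.kf F hD hB hdiam b f| = 2 * κ) :
    ∃ ρ : Form (dPr e D), Basic (Lam hP h) (isFlow_Lam hP h).map ρ ∧
      b ^ 2 = (sgi k * κ ^ 2) • XC.cF (pjT hP h) k + ρ.d := by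
  refine (jn hP h hd hs hb hT).sq_eq (pjT hP h) hdeg hm (q := κ ^ 2) fun L hL => ?_
  obtain ⟨W, hW⟩ := exists_isLF F hD hB hdiam (l := k + 1) hP L.b.v
  have h3 := hv ⟨(L.b.v, W), hW⟩
  have h1 := abs_qT (jn hP h hd hs hb hT) hL (f := ⟨(L.b.v, W), hW⟩) rfl
  have h2 : |(jn hP h hd hs hb hT).qT hL| = κ := by
    refine h1.trans ?_
    refine (congrArg (fun r => 1 / 2 * r) h3).trans ?_
    ring
  rw [← sq, ← sq_abs, h2]

end

end Vale.Agent.P231.BX
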