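import Vale.Agent.P231.BX.InsF
import Vale.Agent.P231.BX.Cls
import Vale.Agent.P231.L3.Three
import Vale.Agent.P231.H584.Int

/-!
# P231, stage 3, block C5 (19): `p₃(ξ) = b₁² / κ² + d(basic)` for the concrete system
-/

set_option maxSynthPendingDepth 3
set_option linter.unusedSectionVars false
set_option linter.unusedVariables false

open Bundle Manifold Set Filter Module MeasureTheory
open scoped ContDiff Manifold Topology ENNReal Real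

namespace Vale.Agent.P231.BX

noncomputable section

open Vale.Agent.P234 Vale.Agent.P231 Vale.Agent.P231.Fm Vale.Agent.P231.W Vale.Agent.P231.WR
  Vale.Agent.P231.H766 Vale.Agent.P231.WG Vale.Agent.P231.S2II Vale.Agent.P231.WQ
  Vale.Agent.P231.H584 Vale.Agent.P231.L3 Vale.Agent.P231.X3
  Vale.Agent.P231.ChW Vale.Agent.P231.S3C

section Alg

variable {X : Type*} {DX : Dif X}

theorem c5_alg {Φ : X × ℝ → X} {hΦ : (DX.prod (Dif.lin ℝ)).Map DX Φ} {b c cT ρ₁ ρ₂ : Form DX}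
    {κ : ℝ} (hκ : κ ≠ 0) (h1 : Basic Φ hΦ ρ₁) (h2 : Basic Φ hΦ ρ₂) (e1 : c = cT + ρ₁.d)
    (e2 : b ^ 2 = (-1 * κ ^ 2) • cT + ρ₂.d) :
    ∃ ρ : Form DX, Basic Φ hΦ ρ ∧ c = -(κ⁻¹ ^ 2) • b ^ 2 + ρ.d := by
  refine ⟨ρ₁ + (κ⁻¹ ^ 2) • ρ₂, Basic.add h1 (Basic.smul _ h2), ?_⟩
  have h3 : κ⁻¹ ^ 2 * κ ^ 2 = 1 := by rw [← mul_pow, inv_mul_cancel₀ hκ, one_pow]
  have h4 : -(κ⁻¹ ^ 2) • b ^ 2 = cT - (κ⁻¹ ^ 2) • ρ₂.d := by
    rw [e2, smul_add, smul_smul, neg_mul, neg_one_mul, mul_neg, neg_neg, h3, one_smul,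
      neg_smul, sub_eq_add_neg]
  rw [h4, e1, Form.d_add, Form.d_smul]
  abel

end Alg

variable {E : Type*} [NormedAddCommGroup E] [NormedSpace ℝ E]
  {M : Type*} [MetricSpace M] [ChartedSpace E M]
  [RiemannianBundle (fun x : M => TangentSpace 𝓘(ℝ, E) x)]
  {e : ∀ x : M, TangentSpace 𝓘(ℝ, E) x → M}
  [FiniteDimensional ℝ E] [IsManifold 𝓘(ℝ, E) ∞ M]
  [IsContMDiffRiemannianBundle 𝓘(ℝ, E) ∞ E (fun x : M => TangentSpace 𝓘(ℝ, E) x)]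
  [CompactSpace M] [ConnectedSpace M] [IsRiemannianManifold 𝓘(ℝ, E) M]

section Core

variable {F : Facts e} {D : ℝ} {hD : 0 < D} {hB : InjGE e D} {hdiam : ∀ p q : M, dist p q ≤ D}
  (hP : ∀ x y : M, dist x y = D → finrank ℝ (H775.Pl e D x y) = 2 * 3 + 1 + 1)
  {ι : Type} [Fintype ι] [DecidableEq ι] {Z δ : ι → UT E M → E} {ε : ℝ}
  (h : S2N.Fam F hD hB hdiam (2 * 3 + 1) Z δ ε)

/-- the abstract form -/
theorem h6_core {β : Form (dPr e D)} (h1 : Form.IsDeg 6 β) (h2 : β.d = 0)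
    (h3 : β.sg = β) (h4 : Basic (S2N.Lam hP h) (S2N.isFlow_Lam hP h).map β)
    (h5 : Form.pull (Th F hD hB hdiam) (map_Th F hD hB hdiam) β = -β) {κ : ℝ} (hκ : κ ≠ 0)
    (h6 : ∀ f : S2II.Fr e D (2 * 3 + 1), |S2II.kf F hD hB hdiam β f| = 2 * κ) :
    ∃ ρ₆ : Form (dPr e D), Basic (S2N.Lam hP h) (S2N.isFlow_Lam hP h).map ρ₆ ∧
      Form.pull Pr.v map_v (XC.cF (pj h) 6) = -(κ⁻¹ ^ 2) • β ^ 2 + ρ₆.d := by
  have : NeZero (2 * 3) := ⟨by norm_num⟩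
  have e1 : 5 + 1 = 2 * 3 := rfl
  have e2 : sgi (2 * 3) = -1 := sgi_six
  obtain ⟨ρ₂, q1, q2⟩ := sq_pair (k := 2 * 3) hP h (m := 5) e1 h1 h2 h3 h4 h5 h6
  obtain ⟨ρ₁, r1, r2⟩ := cls_T (k := 2 * 3) hP h (2 * 3)
  rw [e2] at q2
  exact c5_alg hκ r1 q1 r2 q2

end Core

section Inst

variable
  (F : Facts e) {D : ℝ} (hD : 0 < D) (hB : InjGE e D) (hdiam : ∀ p q : M, dist p q ≤ D)
  [MeasurableSpace M] [BorelSpace M]
  (hl : ∀ x y : M, dist x y = D → finrank ℝ (H775.Pl e D x y) = 2 * 3 + 2)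
  (hN : finrank ℝ E = 15 + 1) (hE : 15 + 1 = (2 * 3 + 2) * (1 + 1))
  {p : M}
  {Pi : TangentSpace 𝓘(ℝ, E) p → TangentSpace 𝓘(ℝ, E) p →L[ℝ] TangentSpace 𝓘(ℝ, E) p}
  {o : TangentSpace 𝓘(ℝ, E) p → Fm.Lam (TangentSpace 𝓘(ℝ, E) p)}
  {ρ : TangentSpace 𝓘(ℝ, E) p → ℝ} {r₀ : ℝ}
  (hJ : FE.LineP e D p 3 Pi o) (hρ : WE.Rho e D p ρ r₀)
  {ι : Type} [Fintype ι] [DecidableEq ι] {Z δ : ι → UT E M → E} {ε : ℝ}
  (h : S2N.Fam F hD hB hdiam (2 * 3 + 1) Z δ ε)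
  {Y : Pr e D → E} {ε₀ : ℝ} (hL : PushL F hD hB hdiam (S2N.Lam hl h) Y ε₀)
  (g : Pr e D × ℝ → M) (hg : ((dPr e D).prod (Dif.lin ℝ)).Map (dM E M) g)
  (hg0 : ∀ b, g (b, 0) = foot b.v) (hg1 : ∀ b t, g (S2N.Lam hl h (b, t), 1) = g (b, 1))
  {R : ℝ} (X : Fr e p R) (v0 : UT E M) {r : Eu E → ℝ} {K : Set (Eu E)} (hr : Q.Cut r K)
  (hDR : D < R) (b : OrthonormalBasis (Fin (15 + 1)) ℝ (Eu E))

include hN hE hg0 hg1 X v0 hr hDR b in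
theorem b1P_d' : (b1P F hD hB hdiam hL hg (FE.FF F hD hB hdiam hl hJ hρ 1)).d = 0 :=
  (inst F hD hB hdiam hl hN hE hJ hρ one_ne_zero hL g hg hg0 hg1 X v0 hr hDR b).b1_d

include hN hE hg0 hg1 X v0 hr hDR b in
theorem b1P_sg' : (b1P F hD hB hdiam hL hg (FE.FF F hD hB hdiam hl hJ hρ 1)).sg =
    b1P F hD hB hdiam hL hg (FE.FF F hD hB hdiam hl hJ hρ 1) :=
  (inst F hD hB hdiam hl hN hE hJ hρ one_ne_zero hL g hg hg0 hg1 X v0 hr hDR b).b1_sg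

include hN hE hg0 hg1 X v0 hr hDR b in
theorem b1P_basic' : Basic (S2N.Lam hl h) hL.flow.map
    (b1P F hD hB hdiam hL hg (FE.FF F hD hB hdiam hl hJ hρ 1)) :=
  (inst F hD hB hdiam hl hN hE hJ hρ one_ne_zero hL g hg hg0 hg1 X v0 hr hDR b).b1_basic

include hN hE hg0 hg1 X v0 hr hDR b in
theorem b1P_Th' : Form.pull (Th F hD hB hdiam) (map_Th F hD hB hdiam)
    (b1P F hD hB hdiam hL hg (FE.FF F hD hB hdiam hl hJ hρ 1)) =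
    -b1P F hD hB hdiam hL hg (FE.FF F hD hB hdiam hl hJ hρ 1) :=
  (inst F hD hB hdiam hl hN hE hJ hρ one_ne_zero hL g hg hg0 hg1 X v0 hr hDR b).σb1

theorem b1P_deg' : Form.IsDeg 6 (b1P F hD hB hdiam hL hg (FE.FF F hD hB hdiam hl hJ hρ 1)) := by
  have hFd : Form.IsDeg 8 (FE.FF F hD hB hdiam hl hJ hρ 1) :=
    S2II.isDeg_FF F hD hB hdiam hl hJ hρ 1
  have hKd : Form.IsDeg 7 (Form.K (Form.pull g hg (FE.FF F hD hB hdiam hl hJ hρ 1))) :=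
    Form.IsDeg.K (Form.IsDeg.pull hFd _ _)
  exact isDeg_J hL.flow.map (2 * D) (Form.IsDeg.sub hKd (Form.IsDeg.pull hKd _ _))

include hN hE in
theorem abs_kf_b0 (f : S2II.Fr e D (2 * 3 + 1)) : |S2II.kf F hD hB hdiam
      (b0P F hD hB hdiam (FE.FF F hD hB hdiam hl hJ hρ 1)) f| = 2 * FE.kap 3 1 :=
  S2II.abs_kf_b0P F hD hB hdiam (n := 3) (two_le hN hE) hl hJ hρ 1 f

include hN hE hg0 hg1 X v0 hr hDR b in
theorem abs_kf_b1 {ℓ : Form (dPr e D)} (hℓ : b1P F hD hB hdiam hL hg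
      (FE.FF F hD hB hdiam hl hJ hρ 1) = (-1 : ℝ) • b0P F hD hB hdiam
      (FE.FF F hD hB hdiam hl hJ hρ 1) + ℓ.d) (f : S2II.Fr e D (2 * 3 + 1)) :
    |S2II.kf F hD hB hdiam (b1P F hD hB hdiam hL hg (FE.FF F hD hB hdiam hl hJ hρ 1)) f| =
      2 * FE.kap 3 1 := by
  have h2 := b1P_d' F hD hB hdiam hl hN hE hJ hρ h hL g hg hg0 hg1 X v0 hr hDR b
  have h7 := kf_add_d (F := F) (hD := hD) (hB := hB) (hdiam := hdiam) (k := 2 * 3) (-1) f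
    (S2II.b0P_d F hD hB hdiam (FE.FF_d F hD hB hdiam hl hJ hρ 1)) h2 hℓ
  rw [h7, abs_mul, abs_neg, abs_one, one_mul]
  exact abs_kf_b0 F hD hB hdiam hl hN hE hJ hρ f

include hN hE hg0 hg1 X v0 hr hDR b in
/-- **`p₃(ξ) = b₁² / κ² + d(basic)`** -/
theorem h6_inst {ℓ : Form (dPr e D)} (hℓ : b1P F hD hB hdiam hL hg
      (FE.FF F hD hB hdiam hl hJ hρ 1) = (-1 : ℝ) • b0P F hD hB hdiam
      (FE.FF F hD hB hdiam hl hJ hρ 1) + ℓ.d) :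
    ∃ ρ₆ : Form (dPr e D), Basic (S2N.Lam hl h) hL.flow.map ρ₆ ∧
      Form.pull Pr.v map_v (XC.cF (pj h) 6) = -((FE.kap 3 1)⁻¹ ^ 2) •
        b1P F hD hB hdiam hL hg (FE.FF F hD hB hdiam hl hJ hρ 1) ^ 2 + ρ₆.d :=
  h6_core (hP := hl) h (b1P_deg' F hD hB hdiam hl hJ hρ h hL g hg)
    (b1P_d' F hD hB hdiam hl hN hE hJ hρ h hL g hg hg0 hg1 X v0 hr hDR b)
    (b1P_sg' F hD hB hdiam hl hN hE hJ hρ h hL g hg hg0 hg1 X v0 hr hDR b)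
    (b1P_basic' F hD hB hdiam hl hN hE hJ hρ h hL g hg hg0 hg1 X v0 hr hDR b)
    (b1P_Th' F hD hB hdiam hl hN hE hJ hρ h hL g hg hg0 hg1 X v0 hr hDR b)
    (FE.kap_pos 3 one_ne_zero).ne'
    (abs_kf_b1 F hD hB hdiam hl hN hE hJ hρ h hL g hg hg0 hg1 X v0 hr hDR b hℓ)

end Inst

end

end Vale.Agent.P231.BX
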