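import Vale.Agent.P231.XC.Space
import Vale.Agent.P231.Co.Gys
import Vale.Agent.P231.H584.Fub
import Vale.Agent.P231.Co.On

/-!
# P231, stage 3, block C5 (3): the join construction

`T = range P` is a bundle of rank `l` on `B`, `dr : (ℝ ⊕ T) - 0 → B` a smooth map with
`dr (b, (1, 0)) = b`, `A b = dr (b, (-1, 0))` and `e` a closed form with `A^* e = -e`. Then there is
a form `C` on the total space of `T` with `C.d = pr^*e - τ`, `τ` supported near the zero section.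
-/

set_option linter.unusedSectionVars false
set_option linter.unusedVariables false

open Matrix Set Filter Topology
open scoped ContDiff

namespace Vale.Agent.P231.BX

open Fm W H584 XC
open Vale.Agent.P231.Fm (Sm Dif Form Lam)

noncomputable section

variable {B : Type*} {DB : Dif B} {ι : Type} [Fintype ι] [DecidableEq ι]

/-- the total space of `T` -/
def VP (P : B → Matrix ι ι ℝ) : Set (B × (ι → ℝ)) := {p | P p.1 *ᵥ p.2 = p.2}

/-- the total space of `ℝ ⊕ T` -/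
def VN (P : B → Matrix ι ι ℝ) : Set (B × (ℝ × (ι → ℝ))) := {p | P p.1 *ᵥ p.2.2 = p.2.2}

/-- the diffeology of `T` -/
abbrev dT (DB : Dif B) (P : B → Matrix ι ι ℝ) : Dif (B × (ι → ℝ)) :=
  (DB.prod (Dif.lin (ι → ℝ))).on (VP P)

/-- the diffeology of `ℝ ⊕ T` -/
abbrev dN (DB : Dif B) (P : B → Matrix ι ι ℝ) : Dif (B × (ℝ × (ι → ℝ))) :=
  (DB.prod (Dif.lin (ℝ × (ι → ℝ)))).on (VN P)

/-- the complement of the zero section -/
def NZ (B : Type*) (ι : Type) : Set (B × (ℝ × (ι → ℝ))) := {p | p.2 ≠ 0}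

/-- the length -/
def nq (x : ι → ℝ) : ℝ := x ⬝ᵥ x

theorem nq_nonneg (x : ι → ℝ) : 0 ≤ nq x := Finset.sum_nonneg fun i _ => mul_self_nonneg _

theorem nq_zero : nq (0 : ι → ℝ) = 0 := by simp [nq]

theorem contDiff_nq : ContDiff ℝ ∞ (nq : (ι → ℝ) → ℝ) := by
  unfold nq dotProduct
  fun_prop

/-- the square of the length on `ℝ ⊕ T` -/
def nqN (p : B × (ℝ × (ι → ℝ))) : ℝ := p.2.1 * p.2.1 + nq p.2.2

theorem contDiff_nqN : ContDiff ℝ ∞ (fun z : ℝ × (ι → ℝ) => z.1 * z.1 + nq z.2) :=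
  (contDiff_fst.mul contDiff_fst).add (contDiff_nq.comp contDiff_snd)

theorem map_nqN {P : B → Matrix ι ι ℝ} : (dN DB P).Map (Dif.lin ℝ) nqN :=
  fun {E} _ _ _ {u x} h =>
    Sm.comp (f := fun z : ℝ × (ι → ℝ) => z.1 * z.1 + nq z.2)
      (Sm.of_contDiff contDiff_nqN _) h.1.2

/-- the profile of the cut-off -/
def rpr (t : ℝ) : ℝ := Real.smoothTransition (8 * t - 1)

theorem contDiff_rpr : ContDiff ℝ ∞ rpr :=
  Real.smoothTransition.contDiff.comp ((contDiff_const.mul contDiff_id).sub contDiff_const)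

theorem rpr_one {t : ℝ} (h : 1 / 4 ≤ t) : rpr t = 1 :=
  Real.smoothTransition.one_of_one_le (by linarith)

theorem rpr_zero {t : ℝ} (h : t ≤ 1 / 8) : rpr t = 0 :=
  Real.smoothTransition.zero_of_nonpos (by linarith)

theorem map_rho {P : B → Matrix ι ι ℝ} : (dN DB P).Map (Dif.lin ℝ) (fun p => rpr (nqN p)) :=
  fun {E} _ _ _ {u x} h => Sm.comp (f := rpr) (Sm.of_contDiff contDiff_rpr _) (map_nqN h)

/-- the cut-off -/
def rho (DB : Dif B) (P : B → Matrix ι ι ℝ) : Form (dN DB P) := Form.fn _ map_rho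

theorem nqN_zero {p : B × (ℝ × (ι → ℝ))} (h : p.2 = 0) : nqN p = 0 := by
  rw [nqN, h]
  simp [nq]

theorem supp_rho {P : B → Matrix ι ι ℝ} : (rho DB P).Supp (NZ B ι) := by
  refine (Form.supp_fn_comp map_nqN map_rho (V := Ioi (1 / 16 : ℝ)) isOpen_Ioi ?_).mono ?_
  · intro t ht
    rw [mem_Ioi, not_lt] at ht
    filter_upwards [gt_mem_nhds (show t < 1 / 8 by linarith)] with s hs
    exact rpr_zero hs.le
  · intro p hp h0
    have h1 : (1 / 16 : ℝ) < nqN p := hp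
    rw [nqN_zero h0] at h1
    norm_num at h1

variable {φ : B × ℝ → B}

/-- the data of the join construction -/
structure Jn (DB : Dif B) (P : B → Matrix ι ι ℝ) (φ : B × ℝ → B)
    (hφ : (DB.prod (Dif.lin ℝ)).Map DB φ) (dr : B × (ℝ × (ι → ℝ)) → B) (e : Form DB) : Prop where
  map : ((dN DB P).on (NZ B ι)).Map DB dr
  eqv : ∀ p t, dr (φ (p.1, t), p.2) = φ (dr p, t)
  inv : ∀ b t, P (φ (b, t)) = P b
  pos : ∀ b, dr (b, (1, 0)) = b
  closed : e.d = 0
  even : e.sg = e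
  bas : Basic φ hφ e
  ant : ∀ hA : DB.Map DB (fun b => dr (b, (-1, 0))), Form.pull (fun b => dr (b, (-1, 0))) hA e = -e

variable {P : B → Matrix ι ι ℝ}

/-! ### the maps -/

/-- the segment `(1 - 2 t, x)` -/
def s1 (q : (B × (ι → ℝ)) × ℝ) : B × (ℝ × (ι → ℝ)) := (q.1.1, (1 - 2 * q.2, q.1.2))

theorem map_s1 : ((dT DB P).prod (Dif.lin ℝ)).Map (dN DB P) s1 := fun {E} _ _ _ {u x} h => by
  have h1 : Sm (fun y => (u y).2) x := h.2
  have h2 : Sm (fun y => (u y).1.2) x := h.1.1.2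
  refine ⟨⟨h.1.1.1, ?_⟩, h.1.2⟩
  change Sm (fun y => ((1 - 2 * (u y).2, (u y).1.2) : ℝ × (ι → ℝ))) x
  filter_upwards [h1, h2] with y k1 k2
  exact (contDiffAt_const.sub (contDiffAt_const.mul k1)).prodMk k2

/-- the segment `(c, t x)` -/
def sh (c : ℝ) (q : (B × (ι → ℝ)) × ℝ) : B × (ℝ × (ι → ℝ)) := (q.1.1, (c, q.2 • q.1.2))

theorem map_sh {c : ℝ} (hc : c ≠ 0) :
    ((dT DB P).prod (Dif.lin ℝ)).Map ((dN DB P).on (NZ B ι)) (sh c) := fun {E} _ _ _ {u x} h => by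
  have h1 : Sm (fun y => (u y).2) x := h.2
  have h2 : Sm (fun y => (u y).1.2) x := h.1.1.2
  refine ⟨⟨⟨h.1.1.1, ?_⟩, ?_⟩, Eventually.of_forall fun y h0 => hc ?_⟩
  · change Sm (fun y => ((c, (u y).2 • (u y).1.2) : ℝ × (ι → ℝ))) x
    filter_upwards [h1, h2] with y k1 k2
    exact contDiffAt_const.prodMk (k1.smul k2)
  · filter_upwards [h.1.2] with y hy
    change P (u y).1.1 *ᵥ ((u y).2 • (u y).1.2) = (u y).2 • (u y).1.2
    rw [Matrix.mulVec_smul, show P (u y).1.1 *ᵥ (u y).1.2 = (u y).1.2 from hy]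
  · have h3 : (sh c (u y)).2.1 = 0 := by
      have : (sh c (u y)).2 = 0 := h0
      rw [this]
      rfl
    exact h3

/-- the end of the segments -/
def cpt (c : ℝ) (p : B × (ι → ℝ)) : B × (ℝ × (ι → ℝ)) := (p.1, (c, p.2))

theorem map_cpt {c : ℝ} (hc : c ≠ 0) : (dT DB P).Map ((dN DB P).on (NZ B ι)) (cpt c) :=
  fun {E} _ _ _ {u x} h => by
  have h2 : Sm (fun y => (u y).2) x := h.1.2
  refine ⟨⟨⟨h.1.1, ?_⟩, h.2⟩, Eventually.of_forall fun y h0 => hc ?_⟩
  · change Sm (fun y => ((c, (u y).2) : ℝ × (ι → ℝ))) x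
    filter_upwards [h2] with y k2
    exact contDiffAt_const.prodMk k2
  · have h3 : (cpt c (u y)).2.1 = 0 := by
      have : (cpt c (u y)).2 = 0 := h0
      rw [this]
      rfl
    exact h3

theorem map_base : (dT DB P).Map DB Prod.fst := fun h => h.1.1

/-- the points `(c, 0)` -/
def cp0 (ι : Type) (c : ℝ) (b : B) : B × (ℝ × (ι → ℝ)) := (b, (c, 0))

theorem map_cp0 {c : ℝ} (hc : c ≠ 0) : DB.Map ((dN DB P).on (NZ B ι)) (cp0 ι c) :=
  fun {E} _ _ _ {u x} h => by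
  refine ⟨⟨⟨h, Sm.of_contDiff contDiff_const _⟩, Eventually.of_forall fun y => ?_⟩,
    Eventually.of_forall fun y h0 => hc ?_⟩
  · change P (u y) *ᵥ (0 : ι → ℝ) = 0
    exact Matrix.mulVec_zero _
  · have h3 : (cp0 ι c (u y)).2.1 = 0 := by
      have : (cp0 ι c (u y)).2 = 0 := h0
      rw [this]
      rfl
    exact h3

namespace Jn

variable {hφ : (DB.prod (Dif.lin ℝ)).Map DB φ} {dr : B × (ℝ × (ι → ℝ)) → B} {e : Form DB}
  (J : Jn DB P φ hφ dr e)

/-- the cut-off form -/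
def Ga : Form (dN DB P) := Form.mx (rho DB P) supp_rho (Form.pull dr J.map e)

theorem Ga_sg : J.Ga.sg = J.Ga := by
  rw [Ga, Form.mx_sg]
  refine Form.mx_congr (Form.sg_fn _ _) ?_
  rw [← Form.pull_sg dr J.map, J.even]

/-- away from the zero section `Γ` is `dr^* e` -/
theorem Ga_val {E : Type} [NormedAddCommGroup E] [NormedSpace ℝ E] [FiniteDimensional ℝ E]
    {u : E → B × (ℝ × (ι → ℝ))} {x : E} (h : (dN DB P).At u x) (hx : 1 / 4 ≤ nqN (u x)) :
    J.Ga.val u x = e.val (dr ∘ u) x := by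
  have h1 : ((dN DB P).on (NZ B ι)).At u x := by
    refine ⟨h, ?_⟩
    have hc : ContinuousAt (fun y => nqN (u y)) x := Sm.continuousAt (map_nqN h)
    filter_upwards [hc.eventually (lt_mem_nhds (show (0 : ℝ) < nqN (u x) by linarith))] with y hy h0
    rw [nqN_zero h0] at hy
    exact lt_irrefl _ hy
  rw [Ga, Form.mx_val, Form.pull_val J.map _ h1, rho, Form.fn_val _ map_rho h, rpr_one hx, map_one,
    one_mul]

theorem Ga_d_val {E : Type} [NormedAddCommGroup E] [NormedSpace ℝ E] [FiniteDimensional ℝ E]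
    {u : E → B × (ℝ × (ι → ℝ))} {x : E} (h : (dN DB P).At u x) (hx : 1 / 4 < nqN (u x)) :
    J.Ga.d.val u x = 0 := by
  have hc : ContinuousAt (fun y => nqN (u y)) x := Sm.continuousAt (map_nqN h)
  have h1 : ∀ᶠ y in 𝓝 x, 1 / 4 < nqN (u y) := hc.eventually (lt_mem_nhds hx)
  have h2 : ((dN DB P).on (NZ B ι)).At u x := by
    refine ⟨h, h1.mono fun y hy h0 => ?_⟩
    rw [nqN_zero h0] at hy
    linarith
  rw [Form.d_val _ h]
  have h3 : J.Ga.val u =ᶠ[𝓝 x] (Form.pull dr J.map e).val u := by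
    filter_upwards [h1, (dN DB P).open' h, ((dN DB P).on (NZ B ι)).open' h2] with y k1 k2 k3
    rw [J.Ga_val k2 k1.le, Form.pull_val J.map _ k3]
  rw [extd_congr h3, ← Form.d_val _ h2, ← Form.pull_d dr J.map, J.closed, Co.pull_zero,
    Form.zero_val]

include J in
theorem map_drsh {c : ℝ} (hc : c ≠ 0) :
    ((dT DB P).prod (Dif.lin ℝ)).Map DB (fun q => dr (sh c q)) := fun h => J.map (map_sh hc h)

include J in
theorem map_drcpt {c : ℝ} (hc : c ≠ 0) :
    (dT DB P).Map DB (fun p => dr (cpt c p)) := fun h => J.map (map_cpt hc h)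

include J in
theorem map_drcp0 {c : ℝ} (hc : c ≠ 0) :
    DB.Map DB (fun b => dr (cp0 ι c b)) := fun h => J.map (map_cp0 hc h)

include J in
theorem map_drcp0' {c : ℝ} (hc : c ≠ 0) :
    (dT DB P).Map DB (fun p => dr (cp0 ι c p.1)) := fun h => J.map_drcp0 hc h.1.1

/-- the primitive -/
def C : Form (dT DB P) := (1 / 2 : ℝ) •
  (Form.K (Form.pull (fun q => dr (sh (-1) q)) (J.map_drsh (by norm_num)) e) -
    Form.K (Form.pull (fun q => dr (sh 1 q)) (J.map_drsh one_ne_zero) e) -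
    Form.K (Form.pull s1 map_s1 J.Ga))

/-- the Thom form -/
def tau : Form (dT DB P) := -((1 / 2 : ℝ) • Form.K (Form.pull s1 map_s1 J.Ga.d))

end Jn

end

end Vale.Agent.P231.BX
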