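import Vale.Agent.P231.BX.Join

/-!
# P231, stage 3, block C5 (4): the join construction: differential, invariance, degrees
-/

set_option linter.unusedSectionVars false
set_option linter.unusedVariables false

open Matrix Set Filter Topology
open scoped ContDiff

namespace Vale.Agent.P231.BX

open Fm W H584 XC
open Vale.Agent.P231.Fm (Sm Dif Form Lam)

noncomputable section

variable {B : Type*} {DB : Dif B} {ι : Type} [Fintype ι] [DecidableEq ι] {φ : B × ℝ → B}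
  {P : B → Matrix ι ι ℝ}

/-- the flow on `T` -/
def fT (ι : Type) (φ : B × ℝ → B) (q : (B × (ι → ℝ)) × ℝ) : B × (ι → ℝ) :=
  (φ (q.1.1, q.2), q.1.2)

/-- the flow on `ℝ ⊕ T` -/
def fN (ι : Type) (φ : B × ℝ → B) (q : (B × (ℝ × (ι → ℝ))) × ℝ) : B × (ℝ × (ι → ℝ)) :=
  (φ (q.1.1, q.2), q.1.2)

theorem map_fT (hφ : (DB.prod (Dif.lin ℝ)).Map DB φ) (hP : ∀ b t, P (φ (b, t)) = P b) :
    ((dT DB P).prod (Dif.lin ℝ)).Map (dT DB P) (fT ι φ) := fun {E} _ _ _ {u x} h => by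
  refine ⟨⟨hφ (u := fun y => ((u y).1.1, (u y).2)) ⟨h.1.1.1, h.2⟩, h.1.1.2⟩, ?_⟩
  filter_upwards [h.1.2] with y hy
  change P (φ ((u y).1.1, (u y).2)) *ᵥ (u y).1.2 = (u y).1.2
  rw [hP]
  exact hy

theorem map_fN (hφ : (DB.prod (Dif.lin ℝ)).Map DB φ) (hP : ∀ b t, P (φ (b, t)) = P b) :
    ((dN DB P).prod (Dif.lin ℝ)).Map (dN DB P) (fN ι φ) := fun {E} _ _ _ {u x} h => by
  refine ⟨⟨hφ (u := fun y => ((u y).1.1, (u y).2)) ⟨h.1.1.1, h.2⟩, h.1.1.2⟩, ?_⟩
  filter_upwards [h.1.2] with y hy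
  change P (φ ((u y).1.1, (u y).2)) *ᵥ (u y).1.2.2 = (u y).1.2.2
  rw [hP]
  exact hy

namespace Jn

variable {hφ : (DB.prod (Dif.lin ℝ)).Map DB φ} {dr : B × (ℝ × (ι → ℝ)) → B} {e : Form DB}
  (J : Jn DB P φ hφ dr e)

include J in
theorem mapA : DB.Map DB (fun b => dr (b, (-1, 0))) := J.map_drcp0 (c := -1) (by norm_num)

/-- the value at the end of a segment -/
def Ec (c : ℝ) (hc : c ≠ 0) : Form (dT DB P) :=
  Form.pull (fun p => dr (cpt c p)) (J.map_drcpt hc) e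

/-- the segment forms -/
def Wc (c : ℝ) (hc : c ≠ 0) : Form ((dT DB P).prod (Dif.lin ℝ)) :=
  Form.pull (fun q => dr (sh c q)) (J.map_drsh hc) e

theorem Wc_closed (c : ℝ) (hc : c ≠ 0) : (J.Wc c hc).d = 0 := by
  rw [Wc, ← Form.pull_d, J.closed, Co.pull_zero]

theorem at_one_Wc (c : ℝ) (hc : c ≠ 0) : W.at_ 1 (J.Wc c hc) = J.Ec c hc := by
  rw [Wc, at_pull_of, Ec]
  refine Form.pull_congr _ _ (funext fun p => ?_) e
  rw [sh, cpt, one_smul]

theorem at_zero_Wc (c : ℝ) (hc : c ≠ 0) : W.at_ 0 (J.Wc c hc) =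
    Form.pull (fun p : B × (ι → ℝ) => dr (cp0 ι c p.1)) (J.map_drcp0' hc) e := by
  rw [Wc, at_pull_of]
  refine Form.pull_congr _ _ (funext fun p => ?_) e
  rw [sh, cp0, zero_smul]

theorem at_zero_Wp : W.at_ 0 (J.Wc 1 one_ne_zero) = Form.pull Prod.fst map_base e := by
  rw [J.at_zero_Wc]
  exact Form.pull_congr _ _ (funext fun p : B × (ι → ℝ) => J.pos p.1) e

theorem at_zero_Wm : W.at_ 0 (J.Wc (-1) (by norm_num)) = -Form.pull Prod.fst map_base e := by
  rw [J.at_zero_Wc, ← Co.pull_neg, ← J.ant J.mapA]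
  exact (H584.pull_pull map_base J.mapA (J.map_drcp0' (by norm_num)) (fun p => rfl) e).symm

theorem K_Wp : (Form.K (J.Wc 1 one_ne_zero)).d =
    J.Ec 1 one_ne_zero - Form.pull Prod.fst map_base e := by
  have h := homotopy' (J.Wc 1 one_ne_zero)
  rw [J.Wc_closed, K_zero, zero_add, J.at_one_Wc, J.at_zero_Wp] at h
  exact h.symm

theorem K_Wm : (Form.K (J.Wc (-1) (by norm_num))).d =
    J.Ec (-1) (by norm_num) + Form.pull Prod.fst map_base e := by
  have h := homotopy' (J.Wc (-1) (by norm_num))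
  rw [J.Wc_closed, K_zero, zero_add, J.at_one_Wc, J.at_zero_Wm, sub_neg_eq_add] at h
  exact h.symm

theorem pull_cpt_Ga {c : ℝ} (hc : c ≠ 0) (hc1 : 1 ≤ c * c) (f : B × (ι → ℝ) → B × (ℝ × (ι → ℝ)))
    (hf : (dT DB P).Map (dN DB P) f) (hfc : f = cpt c) : Form.pull f hf J.Ga = J.Ec c hc := by
  subst hfc
  refine Form.ext_val fun E _ _ _ u x h => ?_
  rw [Form.pull_val _ _ h, Ec, Form.pull_val (J.map_drcpt hc) _ h]
  refine J.Ga_val (hf h) ?_
  have h1 := nq_nonneg (u x).2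
  change 1 / 4 ≤ c * c + nq (u x).2
  linarith

theorem K_s1 : (Form.K (Form.pull s1 map_s1 J.Ga)).d =
    J.Ec (-1) (by norm_num) - J.Ec 1 one_ne_zero - Form.K (Form.pull s1 map_s1 J.Ga.d) := by
  have h := homotopy' (Form.pull s1 map_s1 J.Ga)
  rw [← Form.pull_d, at_pull_of, at_pull_of,
    J.pull_cpt_Ga (c := -1) (by norm_num) (by norm_num) _ _ (funext fun p => by
      simp only [s1, cpt]; norm_num),
    J.pull_cpt_Ga (c := 1) one_ne_zero (by norm_num) _ _ (funext fun p => by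
      simp only [s1, cpt]; norm_num)] at h
  rw [h]
  abel

theorem C_eq : J.C = (1 / 2 : ℝ) • (Form.K (J.Wc (-1) (by norm_num)) -
    Form.K (J.Wc 1 one_ne_zero) - Form.K (Form.pull s1 map_s1 J.Ga)) := rfl

/-- **the differential of the primitive** -/
theorem C_d : J.C.d = Form.pull Prod.fst map_base e - J.tau := by
  rw [J.C_eq, Form.d_smul, Form.d_sub, Form.d_sub, J.K_Wp, J.K_Wm, J.K_s1, tau]
  module

theorem tau_eq : J.tau = Form.pull Prod.fst map_base e - J.C.d := by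
  rw [J.C_d]
  abel

theorem tau_closed : J.tau.d = 0 := by
  rw [J.tau_eq, Form.d_sub, Form.d_d, ← Form.pull_d, J.closed, Co.pull_zero, sub_zero]

/-! ### supports -/

/-- `τ` vanishes away from the zero section -/
theorem tau_val {E : Type} [NormedAddCommGroup E] [NormedSpace ℝ E] [FiniteDimensional ℝ E]
    {u : E → B × (ι → ℝ)} {x : E} (h : (dT DB P).At u x) (hx : 1 / 4 < nq (u x).2) :
    J.tau.val u x = 0 := by
  have h1 : (Form.K (Form.pull s1 map_s1 J.Ga.d)).val u x = 0 := by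
    rw [Form.K_val _ h, kop]
    have : ∀ t : ℝ, (Form.pull s1 map_s1 J.Ga.d).val (Form.cyl u) (x, t) = 0 := fun t => by
      have h2 := Form.cyl_at h t
      rw [Form.pull_val _ _ h2]
      refine J.Ga_d_val (map_s1 h2) ?_
      change 1 / 4 < (1 - 2 * t) * (1 - 2 * t) + nq (u x).2
      nlinarith [mul_self_nonneg (1 - 2 * t)]
    simp only [this, map_zero]
    exact intervalIntegral.integral_zero
  rw [tau, Form.neg_val, Form.smul_val, h1, smul_zero, neg_zero]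

/-! ### parity and degree -/

theorem C_sg : J.C.sg = -J.C := by
  have h1 : ∀ c hc, (Form.K (J.Wc c hc)).sg = -Form.K (J.Wc c hc) := fun c hc => by
    rw [K_sg, Wc, ← Form.pull_sg _ (J.map_drsh hc), J.even]
  have h2 : (Form.K (Form.pull s1 map_s1 J.Ga)).sg = -Form.K (Form.pull s1 map_s1 J.Ga) := by
    rw [K_sg, ← Form.pull_sg, J.Ga_sg]
  rw [J.C_eq, Form.sg_smul, Form.sg_sub, Form.sg_sub, h1, h1, h2]
  module

theorem tau_sg : J.tau.sg = J.tau := by
  have h1 : J.C.d.sg = J.C.d := by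
    have := Form.d_sg J.C
    rw [J.C_sg, Form.d_neg] at this
    exact (neg_injective this).symm
  rw [J.tau_eq, Form.sg_sub, h1, ← Form.pull_sg, J.even]

theorem isDeg_Ga {k : ℕ} (hk : Form.IsDeg k e) : Form.IsDeg k J.Ga := by
  have h1 : Form.IsDeg 0 (rho DB P) := Form.isDeg_fn _ _
  have h2 : Form.IsDeg k (Form.pull dr J.map e) := hk.pull _ _
  refine Form.ext_val fun E _ _ _ u x hu => ?_
  rw [Form.part_val, Ga, Form.mx_val]
  have h3 := WA.prt_mul_of_eq (j := 0) (k := k) (v := (rho DB P).val u x)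
    (w := (Form.pull dr J.map e).val u x) ?_ ?_
  · rwa [zero_add] at h3
  · rw [← Form.part_val, h1.part_eq]
  · rw [← Form.part_val, h2.part_eq]

theorem isDeg_C {k : ℕ} (hk : Form.IsDeg (k + 1) e) : Form.IsDeg k J.C := by
  refine Form.IsDeg.smul _ (((Form.IsDeg.K ?_).sub (Form.IsDeg.K ?_)).sub (Form.IsDeg.K ?_))
  · exact hk.pull _ (J.map_drsh (by norm_num))
  · exact hk.pull _ (J.map_drsh one_ne_zero)
  · exact (J.isDeg_Ga hk).pull _ _

theorem isDeg_tau {k : ℕ} (hk : Form.IsDeg (k + 1) e) : Form.IsDeg (k + 1) J.tau := by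
  rw [J.tau_eq]
  exact (hk.pull _ _).sub (J.isDeg_C hk).d

/-! ### invariance -/

theorem rho_bas : Basic (fN ι φ) (map_fN hφ J.inv) (rho DB P) := by
  rw [basic_def]
  refine Form.ext_val fun E _ _ _ u x h => ?_
  have h1 : (dN DB P).At (Prod.fst ∘ u) x := h.1
  rw [Form.pull_val _ _ h, pr, Form.pull_val Dif.map_fst _ h, rho,
    Form.fn_val _ _ (map_fN hφ J.inv h), Form.fn_val _ _ h1]
  rfl

theorem Ga_bas : Basic (fN ι φ) (map_fN hφ J.inv) J.Ga := by
  rw [basic_def]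
  refine Form.ext_val fun E _ _ _ u x h => ?_
  have h1 : (dN DB P).At (Prod.fst ∘ u) x := h.1
  have k1 := congrArg (fun w : Form ((dN DB P).prod (Dif.lin ℝ)) => w.val u x) J.rho_bas
  change (Form.pull (fN ι φ) (map_fN hφ J.inv) (rho DB P)).val u x = (pr (rho DB P)).val u x at k1
  rw [Form.pull_val _ _ h, pr, Form.pull_val Dif.map_fst _ h] at k1
  rw [Form.pull_val _ _ h, pr, Form.pull_val Dif.map_fst _ h, Ga, Form.mx_val, Form.mx_val, k1]
  rcases (supp_rho (DB := DB) (P := P)).out h1 with h2 | h2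
  · have h3 : ((dN DB P).on (NZ B ι)).At (Prod.fst ∘ u) x := ⟨h1, h2⟩
    have h4 : ((dN DB P).on (NZ B ι)).At (fN ι φ ∘ u) x := ⟨map_fN hφ J.inv h, h2⟩
    congr 1
    rw [Form.pull_val J.map _ h3, Form.pull_val J.map _ h4]
    have h5 : dr ∘ (fN ι φ ∘ u) = φ ∘ fun y => (dr (u y).1, (u y).2) :=
      funext fun y => J.eqv (u y).1 (u y).2
    have h6 : (DB.prod (Dif.lin ℝ)).At (fun y => (dr (u y).1, (u y).2)) x := ⟨J.map h3, h.2⟩
    have k2 := congrArg (fun w : Form (DB.prod (Dif.lin ℝ)) =>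
      w.val (fun y => (dr (u y).1, (u y).2)) x) J.bas
    change (Form.pull φ hφ e).val _ x = (pr e).val _ x at k2
    rw [Form.pull_val _ _ h6, pr, Form.pull_val Dif.map_fst _ h6] at k2
    rw [h5, k2]
    rfl
  · have h3 := h2.self_of_nhds
    rw [h3, zero_mul, zero_mul]

theorem Wc_bas (c : ℝ) (hc : c ≠ 0) :
    Basic (cflow (fT ι φ)) (map_cflow (map_fT hφ J.inv)) (J.Wc c hc) :=
  Basic.pull (map_cflow (map_fT hφ J.inv)) hφ (J.map_drsh hc) (fun q t => J.eqv (sh c q) t) J.bas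

theorem s1_bas : Basic (cflow (fT ι φ)) (map_cflow (map_fT hφ J.inv))
    (Form.pull s1 map_s1 J.Ga) :=
  Basic.pull (map_cflow (map_fT hφ J.inv)) (map_fN hφ J.inv) _ (fun q t => rfl) J.Ga_bas

theorem C_bas : Basic (fT ι φ) (map_fT hφ J.inv) J.C := by
  rw [J.C_eq]
  exact Basic.smul _ (Basic.sub (Basic.sub (basic_K (J.Wc_bas _ _)) (basic_K (J.Wc_bas _ _)))
    (basic_K J.s1_bas))

theorem base_bas : Basic (fT ι φ) (map_fT hφ J.inv) (Form.pull Prod.fst map_base e) :=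
  Basic.pull (map_fT hφ J.inv) hφ _ (fun q t => rfl) J.bas

theorem tau_bas : Basic (fT ι φ) (map_fT hφ J.inv) J.tau := by
  rw [J.tau_eq]
  exact Basic.sub J.base_bas (Basic.d J.C_bas)

end Jn

end

end Vale.Agent.P231.BX
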