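import Vale.Agent.P231.BX.Core

/-!
# P231, stage 3, block BOX (2): integrality of the degree of a map on an open domain, proper over
a convex open set; the even version
-/

set_option linter.unusedSectionVars false
set_option linter.unusedVariables false

open Module MeasureTheory Set Metric Filter
open scoped ContDiff Topology

namespace Vale.Agent.P231.BX

open Fm TW

variable {Z : Type*} [NormedAddCommGroup Z] [NormedSpace ℝ Z] [FiniteDimensional ℝ Z]
  [MeasurableSpace Z] [BorelSpace Z]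
variable {V : Type*} [NormedAddCommGroup V] [NormedSpace ℝ V] [FiniteDimensional ℝ V]
  [MeasurableSpace V] [BorelSpace V]
variable {Ψ : Z → V} {A : Set Z}

/-- **integrality of the degree**: `Ψ` is smooth on the open set `Z₀` and proper over the convex
open set `V₀` -/
theorem exists_int_open {N : ℕ} (bZ : Basis (Fin N) ℝ Z) (bV : Basis (Fin N) ℝ V) {Z₀ : Set Z}
    (hZ : IsOpen Z₀) {V₀ : Set V} (hV : IsOpen V₀) (hVc : Convex ℝ V₀)
    (hΨ : ContDiffOn ℝ ∞ Ψ Z₀) (hp : ∀ K ⊆ V₀, IsCompact K → IsCompact (Z₀ ∩ Ψ ⁻¹' K)) :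
    ∃ n : ℤ, ∀ W : V → Lam V, ContDiff ℝ ∞ W → HasCompactSupport W → tsupport W ⊆ V₀ →
      JD bZ Z₀ (pb Ψ W) = n * JJ bV W := by
  let L : V ≃L[ℝ] Z := (bV.equiv bZ (Equiv.refl _)).toContinuousLinearEquiv
  have hL : bV.map L.toLinearEquiv = bZ := by
    refine Basis.eq_of_apply_eq fun i => ?_
    rw [Basis.map_apply]
    change (bV.equiv bZ (Equiv.refl _)) (bV i) = bZ i
    rw [Basis.equiv_apply]
    rfl
  have hf : ContDiffOn ℝ ∞ (fun v => Ψ (L v)) (L ⁻¹' Z₀) :=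
    hΨ.comp L.contDiff.contDiffOn fun v hv => hv
  obtain ⟨n, hn⟩ := exists_int_degree_form bV.addHaar bV (U := L ⁻¹' Z₀)
    (hZ.preimage L.continuous) hV hVc hf (fun K hKV hK => by
      have h3 : {x | x ∈ L ⁻¹' Z₀ ∧ Ψ (L x) ∈ K} = L.symm '' (Z₀ ∩ Ψ ⁻¹' K) := by
        rw [ContinuousLinearEquiv.image_symm_eq_preimage]
        rfl
      rw [h3]
      exact (hp K hKV hK).image L.symm.continuous)
  refine ⟨n, fun W hW hWc hWV => ?_⟩
  rw [JD_pb_equiv bZ bV L hL]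
  refine Eq.trans ?_ (hn W hW hWc hWV)
  unfold JD
  refine setIntegral_congr_fun (hZ.preimage L.continuous).measurableSet fun v hv => ?_
  change evalForm (pb L (pb Ψ W) v) bV = evalForm (pb (fun v => Ψ (L v)) W v) bV
  rw [← pb_comp W ((hΨ.differentiableOn (by simp)).differentiableAt (hZ.mem_nhds hv))
    L.differentiableAt]

/-- invariance of the integral under a linear isomorphism of determinant one -/
theorem JD_preimage {N : ℕ} (b : Basis (Fin N) ℝ Z) (S : Z ≃L[ℝ] Z)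
    (hS : LinearMap.det ((S : Z →L[ℝ] Z) : Z →ₗ[ℝ] Z) = 1) (w : Z → Lam Z) :
    JD b (S ⁻¹' A) (pb S w) = JD b A w := by
  have h1 : MeasurableEmbedding (S : Z → Z) := S.toHomeomorph.measurableEmbedding
  have h2 : (b.addHaar).map S = b.addHaar := by
    have := Measure.map_linearMap_addHaar_eq_smul_addHaar b.addHaar
      (f := ((S : Z →L[ℝ] Z) : Z →ₗ[ℝ] Z)) (by rw [hS]; exact one_ne_zero)
    rw [hS] at this
    simp only [inv_one, abs_one, ENNReal.ofReal_one, one_smul] at this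
    exact this
  have h3 : JD b A w = ∫ x in S ⁻¹' A, evalForm (w (S x)) b ∂b.addHaar := by
    unfold JD
    conv_lhs => rw [← h2]
    rw [h1.setIntegral_map]
  rw [h3]
  unfold JD
  refine integral_congr_ae (Eventually.of_forall fun x => ?_)
  change evalForm (pb S w x) b = evalForm (w (S x)) b
  rw [pb, S.fderiv, evalForm_pull_det]
  change LinearMap.det ((S : Z →L[ℝ] Z) : Z →ₗ[ℝ] Z) * _ = _
  rw [hS, one_mul]

/-- **evenness of the degree**: the domain is, up to a null set, the disjoint union of two halves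
which are exchanged by a linear isomorphism `S` of determinant one with `Ψ ∘ S = Ψ` -/
theorem exists_int_even {N : ℕ} (bZ : Basis (Fin N) ℝ Z) (bV : Basis (Fin N) ℝ V) {Z₀ Z₁ : Set Z}
    (hZ : IsOpen Z₁) {V₀ : Set V} (hV : IsOpen V₀) (hVc : Convex ℝ V₀)
    (hΨ : ContDiffOn ℝ ∞ Ψ Z₁) (hp : ∀ K ⊆ V₀, IsCompact K → IsCompact (Z₁ ∩ Ψ ⁻¹' K))
    (S : Z ≃L[ℝ] Z) (hS : LinearMap.det ((S : Z →L[ℝ] Z) : Z →ₗ[ℝ] Z) = 1)
    (hΨS : ∀ z ∈ S ⁻¹' Z₁, Ψ (S z) = Ψ z) (hd : Disjoint Z₁ (S ⁻¹' Z₁))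
    (h0 : Z₀ =ᵐ[bZ.addHaar] (Z₁ ∪ S ⁻¹' Z₁ : Set Z)) :
    ∃ n : ℤ, ∀ W : V → Lam V, ContDiff ℝ ∞ W → HasCompactSupport W → tsupport W ⊆ V₀ →
      JD bZ Z₀ (pb Ψ W) = 2 * n * JJ bV W := by
  obtain ⟨n, hn⟩ := exists_int_open bZ bV hZ hV hVc hΨ hp
  refine ⟨n, fun W hW hWc hWV => ?_⟩
  have hZ' : IsOpen (S ⁻¹' Z₁) := hZ.preimage S.continuous
  have hS2 : ∀ z ∈ S ⁻¹' Z₁, pb Ψ W z = pb S (pb Ψ W) z := by
    intro z hz
    have h1 : pb Ψ W z = pb (fun z => Ψ (S z)) W z := by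
      have h2 : Ψ =ᶠ[𝓝 z] fun z => Ψ (S z) := by
        filter_upwards [hZ'.mem_nhds hz] with y hy using (hΨS y hy).symm
      rw [pb, pb, h2.fderiv_eq, h2.eq_of_nhds]
    rw [h1, ← pb_comp W ((hΨ.differentiableOn (by simp)).differentiableAt (hZ.mem_nhds hz))
      S.differentiableAt]
  have hint : ∀ A : Set Z, IsOpen A → ContDiffOn ℝ ∞ Ψ A →
      (∀ K ⊆ V₀, IsCompact K → IsCompact (A ∩ Ψ ⁻¹' K)) →
      IntegrableOn (fun x => evalForm (pb Ψ W x) bZ) A bZ.addHaar := by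
    intro A hA hΨA hpA
    have h1 : ContinuousOn (fun x => evalForm (pb Ψ W x) bZ) A := by
      have h2 : ContDiffOn ℝ ∞ (pb Ψ W) A := by
        intro x hx
        exact (contDiffAt_pb (hΨA.contDiffAt (hA.mem_nhds hx)) hW.contDiffAt
          le_rfl).contDiffWithinAt
      exact (evalL bZ).continuous.comp_continuousOn h2.continuousOn
    have h3 : IntegrableOn (fun x => evalForm (pb Ψ W x) bZ) (A ∩ Ψ ⁻¹' tsupport W) bZ.addHaar :=
      (h1.mono inter_subset_left).integrableOn_compact (hpA _ hWV hWc.isCompact)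
    refine h3.of_forall_sdiff_eq_zero hA.measurableSet fun x hx => ?_
    have h4 : W (Ψ x) = 0 := image_eq_zero_of_notMem_tsupport fun h => hx.2 ⟨hx.1, h⟩
    rw [pb, h4, map_zero, evalForm_apply, map_zero, map_zero]
  have h1 : JD bZ Z₀ (pb Ψ W) = JD bZ Z₁ (pb Ψ W) + JD bZ (S ⁻¹' Z₁) (pb Ψ W) := by
    unfold JD
    rw [setIntegral_congr_set h0]
    refine setIntegral_union hd hZ'.measurableSet (hint Z₁ hZ hΨ hp) (hint _ hZ' ?_ ?_)
    · refine ContDiffOn.congr (f := fun z => Ψ (S z)) (hΨ.comp S.contDiff.contDiffOn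
        fun v hv => hv) fun z hz => (hΨS z hz).symm
    · intro K hK hKc
      have h5 : S ⁻¹' Z₁ ∩ Ψ ⁻¹' K = S.symm '' (Z₁ ∩ Ψ ⁻¹' K) := by
        rw [ContinuousLinearEquiv.image_symm_eq_preimage]
        ext z
        constructor
        · rintro ⟨h6, h7⟩
          exact ⟨h6, by rw [mem_preimage, hΨS z h6]; exact h7⟩
        · rintro ⟨h6, h7⟩
          exact ⟨h6, by rw [mem_preimage, ← hΨS z h6]; exact h7⟩
      rw [h5]
      exact (hp K hK hKc).image S.symm.continuous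
  have h2 : JD bZ (S ⁻¹' Z₁) (pb Ψ W) = JD bZ Z₁ (pb Ψ W) := by
    rw [← JD_preimage bZ S hS (A := Z₁) (pb Ψ W)]
    unfold JD
    refine setIntegral_congr_fun hZ'.measurableSet fun z hz => ?_
    change evalForm (pb Ψ W z) bZ = _
    rw [hS2 z hz]
  rw [h1, h2, hn W hW hWc hWV]
  ring

end Vale.Agent.P231.BX
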