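import Vale.Agent.P231.BX.JoinD

/-!
# P231, stage 3, block C5 (5): a primitive of `e²` on the sphere bundle `S(T ⊗ ℂ)`
-/

set_option linter.unusedSectionVars false
set_option linter.unusedVariables false

open Matrix Set Filter Topology
open scoped ContDiff

namespace Vale.Agent.P231.BX

open Fm W H584 XC X3
open Vale.Agent.P231.Fm (Sm Dif Form Lam)

noncomputable section

variable {B : Type*} {DB : Dif B} {ι : Type} [Fintype ι] [DecidableEq ι] {φ : B × ℝ → B}
  {P : B → Matrix ι ι ℝ}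

/-- real part -/
def vre (z : ι → ℂ) : ι → ℝ := fun i => (z i).re

/-- imaginary part -/
def vim (z : ι → ℂ) : ι → ℝ := fun i => (z i).im

theorem mulVec_vre (A : Matrix ι ι ℝ) (z : ι → ℂ) : A *ᵥ vre z = vre (cplx A *ᵥ z) := by
  ext i
  simp only [Matrix.mulVec, dotProduct, vre, cplx_apply, Complex.re_sum, Complex.re_ofReal_mul]

theorem mulVec_vim (A : Matrix ι ι ℝ) (z : ι → ℂ) : A *ᵥ vim z = vim (cplx A *ᵥ z) := by
  ext i
  simp only [Matrix.mulVec, dotProduct, vim, cplx_apply, Complex.im_sum, Complex.im_ofReal_mul]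

theorem nq_uni {z : ι → ℂ} (h : Uni z) : nq (vre z) + nq (vim z) = 1 := by
  have h1 : ∑ i, (starRingEnd ℂ) (z i) * z i = 1 := h
  have h2 := congrArg Complex.re h1
  rw [Complex.re_sum, Complex.one_re] at h2
  rw [← h2, nq, nq, dotProduct, dotProduct, ← Finset.sum_add_distrib]
  refine Finset.sum_congr rfl fun i _ => ?_
  rw [Complex.mul_re, Complex.conj_re, Complex.conj_im]
  change (z i).re * (z i).re + (z i).im * (z i).im = _
  ring

/-- the real part -/
def zx (p : XS P) : B × (ι → ℝ) := (p.b, vre p.z)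

/-- the imaginary part -/
def zy (p : XS P) : B × (ι → ℝ) := (p.b, vim p.z)

theorem map_zx : (dX DB P).Map (dT DB P) zx := fun {E} _ _ _ {u x} h => by
  have h1 : Sm (fun y => (u y).z) x := map_z h
  refine ⟨⟨map_b h, ?_⟩, Eventually.of_forall fun y => ?_⟩
  · change Sm (fun y => vre (u y).z) x
    filter_upwards [h1] with y hy
    exact contDiffAt_pi.2 fun i =>
      Complex.reCLM.contDiff.contDiffAt.comp y (contDiffAt_pi.1 hy i)
  · change P (u y).b *ᵥ vre (u y).z = vre (u y).z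
    rw [mulVec_vre, (u y).Pz]

theorem map_zy : (dX DB P).Map (dT DB P) zy := fun {E} _ _ _ {u x} h => by
  have h1 : Sm (fun y => (u y).z) x := map_z h
  refine ⟨⟨map_b h, ?_⟩, Eventually.of_forall fun y => ?_⟩
  · change Sm (fun y => vim (u y).z) x
    filter_upwards [h1] with y hy
    exact contDiffAt_pi.2 fun i =>
      Complex.imCLM.contDiff.contDiffAt.comp y (contDiffAt_pi.1 hy i)
  · change P (u y).b *ᵥ vim (u y).z = vim (u y).z
    rw [mulVec_vim, (u y).Pz]

namespace Jn

variable {hφ : (DB.prod (Dif.lin ℝ)).Map DB φ} {dr : B × (ℝ × (ι → ℝ)) → B} {e : Form DB}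
  (J : Jn DB P φ hφ dr e)

/-- the primitive, on the real part -/
def Cx : Form (dX DB P) := Form.pull zx map_zx J.C

/-- the primitive, on the imaginary part -/
def Cy : Form (dX DB P) := Form.pull zy map_zy J.C

/-- the Thom form, on the real part -/
def tx : Form (dX DB P) := Form.pull zx map_zx J.tau

/-- the Thom form, on the imaginary part -/
def ty : Form (dX DB P) := Form.pull zy map_zy J.tau

theorem Cx_d : J.Cx.d = Form.pull XS.b map_b e - J.tx := by
  rw [Cx, ← Form.pull_d, J.C_d, Co.pull_sub, tx]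
  congr 1
  exact H584.pull_pull map_zx map_base map_b (fun p => rfl) e

theorem Cy_d : J.Cy.d = Form.pull XS.b map_b e - J.ty := by
  rw [Cy, ← Form.pull_d, J.C_d, Co.pull_sub, ty]
  congr 1
  exact H584.pull_pull map_zy map_base map_b (fun p => rfl) e

theorem tx_d : J.tx.d = 0 := by rw [tx, ← Form.pull_d, J.tau_closed, Co.pull_zero]

theorem tx_sg : J.tx.sg = J.tx := by rw [tx, ← Form.pull_sg, J.tau_sg]

theorem Cx_sg : J.Cx.sg = -J.Cx := by rw [Cx, ← Form.pull_sg, J.C_sg, Co.pull_neg]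

theorem Cy_sg : J.Cy.sg = -J.Cy := by rw [Cy, ← Form.pull_sg, J.C_sg, Co.pull_neg]

/-- the two Thom forms have disjoint supports -/
theorem tx_ty : J.tx * J.ty = 0 := Form.ext_val fun E _ _ _ u x h => by
  rw [Form.mul_val, tx, ty, Form.pull_val _ _ h, Form.pull_val _ _ h, Form.zero_val]
  have h1 := nq_uni (u x).uni
  rcases lt_or_ge (1 / 4) (nq (vre (u x).z)) with h2 | h2
  · have : J.tau.val (zx ∘ u) x = 0 := J.tau_val (map_zx h) h2
    rw [this, zero_mul]
  · have : J.tau.val (zy ∘ u) x = 0 := J.tau_val (map_zy h) (by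
      change 1 / 4 < nq (vim (u x).z)
      linarith)
    rw [this, mul_zero]

/-- **the primitive of `e²`** -/
def Psi : Form (dX DB P) := J.Cx * Form.pull XS.b map_b e + J.tx * J.Cy

theorem Psi_d : J.Psi.d = Form.pull XS.b map_b (e ^ 2) := by
  have h1 : (Form.pull XS.b map_b e : Form (dX DB P)).d = 0 := by
    rw [← Form.pull_d, J.closed, Co.pull_zero]
  have h2 : (Form.pull XS.b map_b e : Form (dX DB P)).sg = Form.pull XS.b map_b e := by
    rw [← Form.pull_sg, J.even]
  have h3 : J.tx * Form.pull XS.b map_b e = Form.pull XS.b map_b e * J.tx :=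
    (Form.mul_comm_of_even h2 _).symm
  rw [Psi, Form.d_add, Form.d_mul, Form.d_mul, h1, J.Cx_d, J.Cy_d, J.tx_d, J.tx_sg, mul_zero,
    add_zero, zero_mul, zero_add, sub_mul, mul_sub, J.tx_ty, sub_zero, sub_add_cancel, pow_two,
    Co.pull_mul]

theorem Psi_sg : J.Psi.sg = -J.Psi := by
  have h2 : (Form.pull XS.b map_b e : Form (dX DB P)).sg = Form.pull XS.b map_b e := by
    rw [← Form.pull_sg, J.even]
  rw [Psi, Form.sg_add, Form.sg_mul, Form.sg_mul, J.Cx_sg, h2, J.tx_sg, J.Cy_sg]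
  noncomm_ring

theorem isDeg_Psi {k : ℕ} (hk : Form.IsDeg (k + 1) e) : Form.IsDeg (2 * k + 1) J.Psi := by
  have h1 : Form.IsDeg k J.Cx := (J.isDeg_C hk).pull _ _
  have h2 : Form.IsDeg k J.Cy := (J.isDeg_C hk).pull _ _
  have h3 : Form.IsDeg (k + 1) J.tx := (J.isDeg_tau hk).pull _ _
  have h4 : Form.IsDeg (k + 1) (Form.pull XS.b map_b e : Form (dX DB P)) := hk.pull _ _
  exact (Co.degc (h1.mul h4) (by ring)).add (Co.degc (h3.mul h2) (by ring))

theorem Psi_bas : Basic (lft φ J.inv) (map_lft J.inv hφ) J.Psi := by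
  have h1 : Basic (lft φ J.inv) (map_lft J.inv hφ) J.Cx :=
    Basic.pull (map_lft J.inv hφ) (map_fT hφ J.inv) map_zx (fun p t => rfl) J.C_bas
  have h2 : Basic (lft φ J.inv) (map_lft J.inv hφ) J.Cy :=
    Basic.pull (map_lft J.inv hφ) (map_fT hφ J.inv) map_zy (fun p t => rfl) J.C_bas
  have h3 : Basic (lft φ J.inv) (map_lft J.inv hφ) J.tx :=
    Basic.pull (map_lft J.inv hφ) (map_fT hφ J.inv) map_zx (fun p t => rfl) J.tau_bas
  have h4 : Basic (lft φ J.inv) (map_lft J.inv hφ) (Form.pull XS.b map_b e) :=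
    Basic.pull (map_lft J.inv hφ) hφ map_b (fun p t => rfl) J.bas
  exact Basic.add (Basic.mul h1 h4) (Basic.mul h3 h2)

end Jn

end

end Vale.Agent.P231.BX
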