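import Vale.Agent.P231.S2I.LH1

/-!
# P231, stage 3, block C5 (1): the sphere integral of a form which extends to the ball
-/

set_option linter.unusedSectionVars false
set_option linter.unusedVariables false

open MeasureTheory Set Module Filter Topology Metric
open scoped ContDiff

namespace Vale.Agent.P231.BX

open Fm W H584 Vale.Agent.P231.WA Vale.Agent.P231.Co Vale.Agent.P231.S2I
open Q (dR Cut)
open Vale.Agent.P231.Fm (Sm Dif Form Lam)

variable {F : Type} [NormedAddCommGroup F] [InnerProductSpace ℝ F] [FiniteDimensional ℝ F]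
  [MeasurableSpace F] [BorelSpace F] {m : ℕ} (o : OrthonormalBasis (Fin m) ℝ F)

/-- the normalisation, into the whole space -/
theorem map_radL : (dP F).Map (Dif.lin F) rad := fun h => (map_rad' h).1

/-- the value in a plot is determined by the value in the identity plot -/
theorem lin_val (a : Form (Dif.lin F)) {E : Type}
    [NormedAddCommGroup E] [NormedSpace ℝ E] [FiniteDimensional ℝ E] {u : E → F} {x : E}
    (h : (Dif.lin F).At u x) :
    a.val u x = Fm.pull (fderiv ℝ u x) (a.val id (u x)) :=
  a.nat (u := id) (g := u) (Sm.of_contDiff contDiff_id _) h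

theorem at_lin (x : F) : (Dif.lin F).At (id : F → F) x := Sm.of_contDiff contDiff_id x

/-- the complement of a ball -/
def Gs (F : Type) [NormedAddCommGroup F] (R : ℝ) : Set F := {y | R < ‖y‖}

theorem isOpen_Gs (R : ℝ) : IsOpen (Gs F R) := isOpen_lt continuous_const continuous_norm

/-- the radial homotopy, constant outside `[0, 1]` -/
noncomputable def hs (p : F × ℝ) : F :=
  Real.exp ((Real.smoothTransition p.2 - 1) * Real.log ‖p.1‖) • p.1

theorem map_hs {R : ℝ} (h0 : 0 < R) (h1 : R < 1) :
    (((Dif.lin F).on (Gs F R)).prod (Dif.lin ℝ)).Map ((Dif.lin F).on (Gs F R)) hs := by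
  intro E _ _ _ u x h
  have e1 : Sm (fun y => (u y).1) x := h.1.1
  have e2 : ∀ᶠ y in 𝓝 x, R < ‖(u y).1‖ := h.1.2
  have e3 : Sm (fun y => (u y).2) x := h.2
  have hne : ∀ z : F, R < ‖z‖ → z ≠ 0 := fun z hz h => by
    rw [h, norm_zero] at hz
    linarith
  refine ⟨?_, ?_⟩
  · have h4 : Sm (fun y => Real.exp ((Real.smoothTransition (u y).2 - 1) *
        Real.log ‖(u y).1‖) • (u y).1) x := by
      filter_upwards [e1, e2, e3] with y f1 f2 f3
      refine ContDiffAt.smul (ContDiffAt.exp (ContDiffAt.mul
        (((Real.smoothTransition.contDiff (n := ⊤)).contDiffAt.comp y f3).sub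
          contDiffAt_const) ?_)) f1
      exact (f1.norm ℝ (hne _ f2)).log (norm_ne_zero_iff.2 (hne _ f2))
    exact h4
  · filter_upwards [e2] with y hy
    have hy0 : 0 < ‖(u y).1‖ := h0.trans hy
    change R < ‖Real.exp ((Real.smoothTransition (u y).2 - 1) * Real.log ‖(u y).1‖) • (u y).1‖
    rw [norm_smul, Real.norm_of_nonneg (Real.exp_pos _).le]
    have h5 : Real.exp ((Real.smoothTransition (u y).2 - 1) * Real.log ‖(u y).1‖) * ‖(u y).1‖ =
        Real.exp (Real.smoothTransition (u y).2 * Real.log ‖(u y).1‖) := by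
      conv_lhs => rw [← Real.exp_log hy0]
      rw [Real.log_exp, ← Real.exp_add]
      congr 1
      ring
    rw [h5]
    have h6 : Real.log R < Real.smoothTransition (u y).2 * Real.log ‖(u y).1‖ := by
      have h7 : Real.log R < Real.log ‖(u y).1‖ := Real.log_lt_log h0 hy
      have h8 : Real.log R < 0 := Real.log_neg h0 h1
      have h9 := Real.smoothTransition.nonneg (u y).2
      have h10 := Real.smoothTransition.le_one (u y).2
      rcases le_or_gt 0 (Real.log ‖(u y).1‖) with h11 | h11
      · nlinarith
      · nlinarith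
    calc R = Real.exp (Real.log R) := (Real.exp_log h0).symm
      _ < _ := Real.exp_lt_exp.2 h6

theorem hs_one {y : F} : hs (y, 1) = y := by
  simp [hs]

theorem hs_zero {y : F} (hy : y ≠ 0) : hs (y, 0) = rad y := by
  have h : 0 < ‖y‖ := norm_pos_iff.2 hy
  rw [hs, rad]
  simp only [Real.smoothTransition.zero, zero_sub, neg_mul, one_mul]
  rw [Real.exp_neg, Real.exp_log h]

/-- **the sphere integral of a form which extends to the ball** -/
theorem sint_eq_int (β : Form (Dif.lin F)) {R : ℝ} (h0 : 0 < R) (h1 : R < 1)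
    (hβ : ∀ y : F, R < ‖y‖ → β.d.val id y = 0) :
    sint o (Form.pull rad map_radL β) = ∫ y, evalForm (β.d.val id y) o := by
  have hO : IsOpen (Gs F R) := isOpen_Gs R
  have hne : ∀ z : F, R < ‖z‖ → z ≠ 0 := fun z hz h => by
    rw [h, norm_zero] at hz
    linarith
  set σ : Form (dP F) := Form.pull rad map_radL β with hσ
  have hσd : σ.d = 0 := by
    rw [hσ, ← Form.pull_d]
    refine S2I.ext_id isOpen_ne fun x hx => ?_
    rw [Form.pull_val _ _ (at_id hx), lin_val _ (map_radL (at_id hx)), Form.zero_val]
    have : β.d.val id ((rad ∘ id) x) = 0 := hβ _ (by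
      change R < ‖rad x‖
      rw [norm_rad hx]
      exact h1)
    rw [this, map_zero]
  -- the homotopy on the complement of the ball
  set b' : Form ((Dif.lin F).on (Gs F R)) := Form.res (Gs F R) β with hb'
  have hb'd : b'.d = 0 := by
    rw [hb', Form.res_d]
    refine S2I.ext_id hO fun x hx => ?_
    rw [Form.res_val _ (S2I.on_id hO hx), hβ x hx, Form.zero_val]
  have hid : ((Dif.lin F).on (Gs F R)).Map (dP F) id := fun {E} _ _ _ {u x} h =>
    ⟨h.1, h.2.mono fun y hy => hne _ hy⟩
  set L : Form ((Dif.lin F).on (Gs F R)) := Form.K (Form.pull hs (map_hs h0 h1) b') with hL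
  have key : b' = Form.pull id hid σ + L.d := by
    have h := homotopy' (Form.pull hs (map_hs h0 h1) b')
    rw [← Form.pull_d, hb'd, Co.pull_zero, K_zero, zero_add] at h
    have e1 : at_ 1 (Form.pull hs (map_hs h0 h1) b') = b' :=
      (pull_pull (k := fun y : F => y) (Form.map_slice 1) (map_hs h0 h1) (fun h => h)
        (fun y => hs_one) b').trans (Form.pull_id _ b')
    have e2 : at_ 0 (Form.pull hs (map_hs h0 h1) b') = Form.pull id hid σ := by
      refine Form.ext_val fun E _ _ _ u x hu => ?_
      rw [at_, Form.pull_val _ _ hu, Form.pull_val _ _ (Form.map_slice 0 hu),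
        Form.pull_val _ _ hu, hσ, Form.pull_val _ _ (hid hu), hb',
        Form.res_val _ (map_hs h0 h1 (Form.map_slice 0 hu))]
      refine β.congr ((map_hs h0 h1 (Form.map_slice 0 hu)).1) ?_
      filter_upwards [hu.2] with y hy
      exact hs_zero (hne _ hy)
    rw [e1, e2] at h
    rw [hL, ← h]
    abel
  -- the cut-off
  set a : ℝ := (R ^ 2 + 1) / 2 with ha
  have ha0 : R ^ 2 < a := by nlinarith
  have ha1 : a < 1 := by nlinarith
  let g : ℝ → ℝ := fun t => Real.smoothTransition ((t - a) / (1 - a))
  have hg : ContDiff ℝ ∞ g := Real.smoothTransition.contDiff.comp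
    ((contDiff_id.sub contDiff_const).div_const _)
  have hg0 : ∀ t ≤ a, g t = 0 := fun t ht => Real.smoothTransition.zero_of_nonpos
    (div_nonpos_of_nonpos_of_nonneg (by linarith) (by linarith))
  have hg1 : ∀ t, 1 ≤ t → g t = 1 := fun t ht => Real.smoothTransition.one_of_one_le
    ((one_le_div (by linarith)).2 (by linarith))
  let r : F → ℝ := fun y => g (‖y‖ ^ 2)
  have hr : ContDiff ℝ ∞ r := hg.comp (contDiff_norm_sq ℝ)
  have hr1 : ∀ y, 1 ≤ ‖y‖ → r y = 1 := fun y hy => hg1 _ (by nlinarith)
  have hcut : Cut r (closedBall 0 1) := by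
    refine ⟨hr, isCompact_closedBall _ _, fun y hy => ?_, ?_⟩
    · rw [mem_closedBall_zero_iff, not_le] at hy
      exact hr1 y hy.le
    · have h2 : ContinuousAt (fun y : F => ‖y‖ ^ 2) 0 := by fun_prop
      have h3 : (fun y : F => ‖y‖ ^ 2) 0 < a := by
        simp only [norm_zero]
        nlinarith
      filter_upwards [h2.eventually (gt_mem_nhds h3)] with y hy using hg0 _ hy.le
  have hmr : (Dif.lin F).Map (Dif.lin ℝ) r := fun {E} _ _ _ {u x} h =>
    Sm.comp (f := r) (Sm.of_contDiff hr _) h
  have hsup : (Form.fn r hmr).Supp (Gs F R) := by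
    refine ⟨fun {E} _ _ _ {u x} hu => ?_⟩
    have hc : ContinuousAt (fun y => ‖u y‖ ^ 2) x := (Sm.continuousAt hu).norm.pow 2
    by_cases hx : R < ‖u x‖
    · exact Or.inl ((Sm.continuousAt hu).eventually (hO.mem_nhds hx))
    · refine Or.inr ?_
      have hx2 : ‖u x‖ ^ 2 < a := by
        rw [not_lt] at hx
        have := norm_nonneg (u x)
        nlinarith
      filter_upwards [hc.eventually (gt_mem_nhds hx2), (Dif.lin F).open' hu] with y hy hu'
      rw [Form.fn_val _ hmr hu']
      have : r (u y) = 0 := hg0 _ hy.le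
      rw [this, map_zero]
  have hsup' : (Form.fn r hmr).Supp {y | y ≠ 0} := hsup.mono fun y hy => hne y hy
  set M1 : Form (Dif.lin F) := Form.mx (Form.fn r hmr) hsup' σ with hM1
  set M2 : Form (Dif.lin F) := Form.mx (Form.fn r hmr) hsup L with hM2
  set τ : Form (Dif.lin F) := β - M1 - M2.d with hτ
  have hτ0 : ∀ y, 1 < ‖y‖ → τ.val id y = 0 := by
    intro y hy
    have hyG : y ∈ Gs F R := h1.trans hy
    have hy1 : ∀ᶠ z in 𝓝 y, 1 < ‖z‖ := (isOpen_lt continuous_const continuous_norm).mem_nhds hy
    have e1 : M1.val id y = σ.val id y := by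
      rw [hM1, Form.mx_val, Form.fn_val _ hmr (at_lin y)]
      change algebraMap ℝ (Lam F) (r y) * _ = _
      rw [hr1 y hy.le, map_one, one_mul]
    have e2 : M2.d.val id y = L.d.val id y := by
      rw [Form.d_val _ (at_lin y), Form.d_val _ (S2I.on_id hO hyG)]
      refine extd_congr ?_
      filter_upwards [hy1] with z hz
      rw [hM2, Form.mx_val, Form.fn_val _ hmr (at_lin z)]
      change algebraMap ℝ (Lam F) (r z) * _ = _
      rw [hr1 z hz.le, map_one, one_mul]
    have e3 : β.val id y = σ.val id y + L.d.val id y := by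
      have := congrArg (fun w : Form ((Dif.lin F).on (Gs F R)) => w.val id y) key
      change b'.val id y = (Form.pull id hid σ).val id y + L.d.val id y at this
      rw [hb', Form.res_val _ (S2I.on_id hO hyG), Form.pull_val _ _ (S2I.on_id hO hyG)] at this
      exact this
    change β.val id y - M1.val id y - M2.d.val id y = 0
    rw [e1, e2, e3]
    abel
  have hτs : ContDiff ℝ ∞ (τ.val id) :=
    contDiff_iff_contDiffAt.2 fun y => τ.smooth (at_lin y)
  have hτc : HasCompactSupport (τ.val id) :=
    HasCompactSupport.intro (isCompact_closedBall (0 : F) 1) fun y hy => hτ0 y (by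
      rw [mem_closedBall_zero_iff, not_le] at hy
      exact hy)
  have hst := integral_evalForm_extd (volume : Measure F) o (hτs.of_le (by simp)) hτc
  have hM1d : ∀ y, M1.d.val id y = dR r y * σ.val id y := by
    intro y
    rw [hM1, Form.mx_d, Form.add_val, Form.mx_val, Form.mx_val, hσd, Form.zero_val, mul_zero,
      add_zero, Form.d_val _ (at_lin y), Q.dR_eq (hr.differentiable (by simp))]
    congr 1
    refine extd_congr (Eventually.of_forall fun z => ?_)
    rw [Form.fn_val _ hmr (at_lin z)]
    rfl
  have hτd : ∀ y, evalForm (extd (τ.val id) y) o =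
      evalForm (β.d.val id y) o - evalForm (dR r y * σ.val id y) o := by
    intro y
    rw [← Form.d_val _ (at_lin y), hτ, Form.d_sub, Form.d_sub, Form.d_d, sub_zero, ← hM1d y]
    change evalForm (β.d.val id y - M1.d.val id y) o = _
    rw [evalForm_apply, map_sub, map_sub]
    rfl
  simp only [hτd] at hst
  have i1 : Integrable (fun y => evalForm (β.d.val id y) o) := by
    have hc : Continuous fun y => β.d.val id y :=
      continuous_iff_continuousAt.2 fun y => (β.d.smooth (at_lin y)).continuousAt
    refine Continuous.integrable_of_hasCompactSupport ((evalL o).continuous.comp hc) ?_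
    refine HasCompactSupport.intro (isCompact_closedBall (0 : F) R) fun y hy => ?_
    rw [mem_closedBall_zero_iff, not_le] at hy
    change evalL o (β.d.val id y) = 0
    rw [hβ y hy, map_zero]
  rw [integral_sub i1 (integrable_dR o σ hcut), sub_eq_zero] at hst
  rw [hst, sint_eq_cut o hσd hcut]

end Vale.Agent.P231.BX
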